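import Mathlib

/-!
Computability of rational arithmetic for Mathlib's `Primcodable ℚ` instance
(which comes from `Denumerable ℚ`, i.e. from counting the valid codes).
-/

namespace Crest.Agent.RatComp

open Encodable Denumerable Nat

/-! ### Decoding the instance -/

/-- the raw code of a rational: pair of the code of the numerator and the denominator -/
def code0 (q : ℚ) : ℕ := Nat.pair (Encodable.encode q.num) q.den

theorem code0_eq (q : ℚ) : @Encodable.encode ℚ Rat.instEncodable q = code0 q := rfl

/-- decidable description of valid raw codes -/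
def Valid (m : ℕ) : Prop := 0 < m.unpair.2 ∧ ∀ k < m.unpair.2 + 1,
  ¬ (k ≠ 1 ∧ ((m.unpair.1 + 1) / 2) % k = 0 ∧ m.unpair.2 % k = 0)

instance : DecidablePred Valid := fun m => by unfold Valid; infer_instance

theorem encode_int_natAbs (z : ℤ) : (Encodable.encode z + 1) / 2 = z.natAbs := by
  cases z with
  | ofNat n =>
    have : Encodable.encode (Int.ofNat n) = 2 * n := rfl
    rw [this]; simp only [Int.ofNat_eq_natCast, Int.natAbs_natCast]; omega
  | negSucc n =>
    have : Encodable.encode (Int.negSucc n) = 2 * n + 1 := rfl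
    rw [this]; simp only [Int.natAbs_negSucc]; omega

theorem encode_int_pos (z : ℤ) :
    (if Encodable.encode z % 2 = 0 then Encodable.encode z / 2 else 0) = z.toNat := by
  cases z with
  | ofNat n =>
    have : Encodable.encode (Int.ofNat n) = 2 * n := rfl
    rw [this]; simp
  | negSucc n =>
    have : Encodable.encode (Int.negSucc n) = 2 * n + 1 := rfl
    rw [this]
    have h : ¬ ((2 * n + 1) % 2 = 0) := by omega
    rw [if_neg h]; simp

theorem encode_int_neg (z : ℤ) :
    (if Encodable.encode z % 2 = 0 then 0 else (Encodable.encode z + 1) / 2) = (-z).toNat := by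
  cases z with
  | ofNat n =>
    have : Encodable.encode (Int.ofNat n) = 2 * n := rfl
    rw [this]; simp
  | negSucc n =>
    have : Encodable.encode (Int.negSucc n) = 2 * n + 1 := rfl
    rw [this]
    have h : ¬ ((2 * n + 1) % 2 = 0) := by omega
    rw [if_neg h]
    have : (-(Int.negSucc n)).toNat = n + 1 := by simp [Int.neg_negSucc]
    rw [this]; omega

theorem valid_iff (m : ℕ) : Valid m ↔ m ∈ Set.range (@Encodable.encode ℚ Rat.instEncodable) := by
  constructor
  · rintro ⟨h0, h⟩
    obtain ⟨z, hz⟩ : ∃ z : ℤ, Encodable.encode z = m.unpair.1 :=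
      ⟨Denumerable.ofNat ℤ m.unpair.1, by
        exact Denumerable.encode_ofNat (α := ℤ) m.unpair.1⟩
    have hcop : Nat.Coprime z.natAbs m.unpair.2 := by
      rw [Nat.coprime_iff_gcd_eq_one]
      by_contra hne
      have hle : Nat.gcd z.natAbs m.unpair.2 ≤ m.unpair.2 := Nat.gcd_le_right _ h0
      refine h _ (by omega) ⟨hne, ?_, ?_⟩
      · rw [← hz, encode_int_natAbs]
        exact Nat.mod_eq_zero_of_dvd (Nat.gcd_dvd_left _ _)
      · exact Nat.mod_eq_zero_of_dvd (Nat.gcd_dvd_right _ _)
    refine ⟨⟨z, m.unpair.2, by omega, hcop⟩, ?_⟩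
    rw [code0_eq]
    show Nat.pair (Encodable.encode z) m.unpair.2 = m
    rw [hz, Nat.pair_unpair]
  · rintro ⟨q, rfl⟩
    rw [code0_eq]
    refine ⟨?_, ?_⟩
    · simp only [code0, Nat.unpair_pair]; exact q.pos
    · rintro k hk ⟨hk1, h1, h2⟩
      simp only [code0, Nat.unpair_pair] at h1 h2
      rw [encode_int_natAbs] at h1
      have d1 := Nat.dvd_of_mod_eq_zero h1
      have d2 := Nat.dvd_of_mod_eq_zero h2
      have := Nat.dvd_gcd d1 d2
      rw [q.reduced] at this
      exact hk1 (Nat.dvd_one.1 this)

theorem primrec_valid : PrimrecPred Valid := by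
  classical
  have hR : PrimrecRel (fun (k m : ℕ) =>
      ¬ (k ≠ 1 ∧ ((m.unpair.1 + 1) / 2) % k = 0 ∧ m.unpair.2 % k = 0)) := by
    have e1 : PrimrecPred (fun a : ℕ × ℕ => a.1 = 1) :=
      Primrec.eq.comp Primrec.fst (Primrec.const 1)
    have e2 : PrimrecPred (fun a : ℕ × ℕ => ((a.2.unpair.1 + 1) / 2) % a.1 = 0) :=
      Primrec.eq.comp (Primrec.nat_mod.comp
        (Primrec.nat_div.comp (Primrec.succ.comp
          (Primrec.fst.comp (Primrec.unpair.comp Primrec.snd))) (Primrec.const 2)) Primrec.fst)
        (Primrec.const 0)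
    have e3 : PrimrecPred (fun a : ℕ × ℕ => a.2.unpair.2 % a.1 = 0) :=
      Primrec.eq.comp (Primrec.nat_mod.comp
        (Primrec.snd.comp (Primrec.unpair.comp Primrec.snd)) Primrec.fst)
        (Primrec.const 0)
    exact (e1.not.and (e2.and e3)).not
  have hF := PrimrecRel.forall_lt hR
  have h1 : PrimrecPred (fun m : ℕ => 0 < m.unpair.2) :=
    Primrec.nat_lt.comp (Primrec.const 0) (Primrec.snd.comp Primrec.unpair)
  have h2 : PrimrecPred (fun m : ℕ => ∀ k < m.unpair.2 + 1,
      ¬ (k ≠ 1 ∧ ((m.unpair.1 + 1) / 2) % k = 0 ∧ m.unpair.2 % k = 0)) :=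
    hF.comp (Primrec.succ.comp (Primrec.snd.comp Primrec.unpair)) Primrec.id
  exact h1.and h2

/-- raw code of the rational with (Denumerable) code `N` -/
def vcode (N : ℕ) : ℕ := code0 (Denumerable.ofNat ℚ N)

theorem exists_next (x : ℕ) : ∃ k, Valid (x + k + 1) := by
  by_contra h
  push Not at h
  have hinj : Function.Injective (@Encodable.encode ℚ Rat.instEncodable) :=
    @Encodable.encode_injective ℚ Rat.instEncodable
  have hinf : (Set.range (@Encodable.encode ℚ Rat.instEncodable)).Infinite :=
    Set.infinite_range_of_injective hinj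
  apply hinf
  apply (Set.finite_Iic x).subset
  rintro m hm
  rw [← valid_iff] at hm
  by_contra hmx
  simp only [Set.mem_Iic, not_le] at hmx
  obtain ⟨k, rfl⟩ := Nat.exists_eq_add_of_lt hmx
  exact h k hm

def next (x : ℕ) : ℕ := x + Nat.find (exists_next x) + 1

theorem vcode_succ (N : ℕ) : vcode (N + 1) = next (vcode N) := by
  let i1 := @Encodable.decidableRangeEncode ℚ Rat.instEncodable
  let i2 : Infinite (Set.range (@Encodable.encode ℚ Rat.instEncodable)) :=
    Infinite.of_injective _ (Equiv.ofInjective _ Encodable.encode_injective).injective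
  have key : ∀ N, (vcode N) = ((Nat.Subtype.ofNat
      (Set.range (@Encodable.encode ℚ Rat.instEncodable)) N : _) : ℕ) := by
    intro N
    have h1 : Denumerable.ofNat ℚ N = (@Encodable.equivRangeEncode ℚ Rat.instEncodable).symm
        (Nat.Subtype.ofNat (Set.range (@Encodable.encode ℚ Rat.instEncodable)) N) := by
      rfl
    unfold vcode
    rw [h1, ← code0_eq]
    set y := Nat.Subtype.ofNat (Set.range (@Encodable.encode ℚ Rat.instEncodable)) N
    have := (@Encodable.equivRangeEncode ℚ Rat.instEncodable).apply_symm_apply y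
    conv_rhs => rw [← this]
    rfl
  rw [key, key]
  show ((Nat.Subtype.succ _ : _) : ℕ) = _
  unfold Nat.Subtype.succ next
  simp only
  congr 2
  apply le_antisymm
  · apply Nat.find_min'
    rw [← valid_iff]
    exact Nat.find_spec (exists_next _)
  · apply Nat.find_min'
    rw [valid_iff]
    exact Nat.find_spec (Nat.Subtype.exists_succ _)

theorem computable_find {α : Type*} [Primcodable α] {p : α → ℕ → Bool} (hp : Computable₂ p)
    (h : ∀ a, ∃ n, p a n = true) : Computable (fun a => Nat.find (h a)) := by
  have h1 : Partrec (fun a => Nat.rfind (fun n => Part.some (p a n))) :=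
    Partrec.rfind (hp.partrec₂)
  refine (h1.of_eq ?_)
  intro a
  apply Part.eq_some_iff.2
  refine Nat.mem_rfind.2 ⟨?_, ?_⟩
  · have := Nat.find_spec (h a)
    simp [this]
  · intro m hm
    have := Nat.find_min (h a) hm
    simp only [Bool.not_eq_true] at this
    simp [this]

theorem computable_next : Computable next := by
  have h1 : Computable₂ (fun (x k : ℕ) => decide (Valid (x + k + 1))) := by
    have : Primrec (fun a : ℕ × ℕ => decide (Valid (a.1 + a.2 + 1))) :=
      (primrec_valid.comp (Primrec.succ.comp (Primrec.nat_add.comp Primrec.fst Primrec.snd))).decide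
    exact this.to_comp
  have h2 := computable_find h1 (fun a => by simpa using exists_next a)
  have h3 : Computable (fun x => x + Nat.find (exists_next x) + 1) := by
    refine Computable.succ.comp ((Primrec.nat_add.to_comp).comp Computable.id ?_)
    refine h2.of_eq ?_
    intro n
    congr 1
    ext k
    simp
  exact h3

theorem computable_vcode : Computable vcode := by
  have : Computable (fun N : ℕ => (Nat.rec (vcode 0) (fun _ x => next x) N : ℕ)) :=
    Computable.nat_rec Computable.id (Computable.const _)
      ((computable_next.comp (Computable.snd.comp Computable.snd)).to₂)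
  refine this.of_eq ?_
  intro N
  induction N with
  | zero => rfl
  | succ n ih => rw [vcode_succ, ← ih]

theorem computable_code0 : Computable code0 := by
  refine (computable_vcode.comp (Computable.encode (α := ℚ))).of_eq ?_
  intro q
  unfold vcode
  rw [Denumerable.ofNat_encode]

/-- positive part of the numerator -/
def pos (q : ℚ) : ℕ := q.num.toNat
/-- negative part of the numerator -/
def neg (q : ℚ) : ℕ := (-q.num).toNat
/-- denominator minus one -/
def den' (q : ℚ) : ℕ := q.den - 1

theorem computable_pos : Computable pos := by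
  have h : Primrec (fun m : ℕ => if m.unpair.1 % 2 = 0 then m.unpair.1 / 2 else 0) :=
    Primrec.ite (Primrec.eq.comp (Primrec.nat_mod.comp (Primrec.fst.comp Primrec.unpair)
      (Primrec.const 2)) (Primrec.const 0))
      (Primrec.nat_div.comp (Primrec.fst.comp Primrec.unpair) (Primrec.const 2)) (Primrec.const 0)
  refine (h.to_comp.comp computable_code0).of_eq ?_
  intro q
  simp only [code0, Nat.unpair_pair]
  exact encode_int_pos _

theorem computable_neg' : Computable neg := by
  have h : Primrec (fun m : ℕ => if m.unpair.1 % 2 = 0 then 0 else (m.unpair.1 + 1) / 2) :=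
    Primrec.ite (Primrec.eq.comp (Primrec.nat_mod.comp (Primrec.fst.comp Primrec.unpair)
      (Primrec.const 2)) (Primrec.const 0))
      (Primrec.const 0)
      (Primrec.nat_div.comp (Primrec.succ.comp (Primrec.fst.comp Primrec.unpair))
        (Primrec.const 2))
  refine (h.to_comp.comp computable_code0).of_eq ?_
  intro q
  simp only [code0, Nat.unpair_pair]
  exact encode_int_neg _

theorem computable_den' : Computable den' := by
  have h : Primrec (fun m : ℕ => m.unpair.2 - 1) :=
    Primrec.nat_sub.comp (Primrec.snd.comp Primrec.unpair) (Primrec.const 1)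
  refine (h.to_comp.comp computable_code0).of_eq ?_
  intro q
  simp only [code0, Nat.unpair_pair, den']

theorem parts_eq (q : ℚ) : q = ((pos q : ℚ) - (neg q : ℚ)) / ((den' q : ℚ) + 1) := by
  have h1 : ((den' q : ℚ) + 1) = q.den := by
    have := q.pos
    unfold den'
    rw [Nat.cast_sub (by omega)]
    simp
  have h2 : ((pos q : ℚ) - (neg q : ℚ)) = q.num := by
    have : ((pos q : ℤ) - (neg q : ℤ)) = q.num := by
      unfold pos neg; omega
    exact_mod_cast congrArg (Int.cast : ℤ → ℚ) this
  rw [h1, h2]
  exact (Rat.num_div_den q).symm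

/-- build a rational from natural number data -/
def mk (a b d : ℕ) : ℚ := ((a : ℚ) - b) / ((d : ℚ) + 1)

theorem eq_mk_iff (q : ℚ) (a b d : ℕ) :
    q = mk a b d ↔ pos q * (d + 1) + b * (den' q + 1) = a * (den' q + 1) + neg q * (d + 1) := by
  conv_lhs => rw [parts_eq q]
  unfold mk
  have h1 : ((den' q : ℚ) + 1) ≠ 0 := by positivity
  have h2 : ((d : ℚ) + 1) ≠ 0 := by positivity
  rw [div_eq_div_iff h1 h2]
  constructor
  · intro h
    have : (pos q : ℚ) * (d + 1) + b * (den' q + 1) = a * (den' q + 1) + neg q * (d + 1) := by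
      linarith
    exact_mod_cast this
  · intro h
    have : (pos q : ℚ) * (d + 1) + b * (den' q + 1) = a * (den' q + 1) + neg q * (d + 1) := by
      exact_mod_cast h
    linarith

theorem computable_mk : Computable (fun p : ℕ × ℕ × ℕ => mk p.1 p.2.1 p.2.2) := by
  have hN : Computable (fun a : (ℕ × ℕ × ℕ) × ℕ => Denumerable.ofNat ℚ a.2) :=
    (Computable.ofNat ℚ).comp Computable.snd
  have hpos := computable_pos.comp hN
  have hneg := computable_neg'.comp hN
  have hden := Computable.succ.comp (computable_den'.comp hN)
  have ha : Computable (fun a : (ℕ × ℕ × ℕ) × ℕ => a.1.1) := Computable.fst.comp Computable.fst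
  have hb : Computable (fun a : (ℕ × ℕ × ℕ) × ℕ => a.1.2.1) :=
    Computable.fst.comp (Computable.snd.comp Computable.fst)
  have hd : Computable (fun a : (ℕ × ℕ × ℕ) × ℕ => a.1.2.2 + 1) :=
    Computable.succ.comp (Computable.snd.comp (Computable.snd.comp Computable.fst))
  have mulC : Computable₂ (fun x y : ℕ => x * y) := Primrec.nat_mul.to_comp
  have addC : Computable₂ (fun x y : ℕ => x + y) := Primrec.nat_add.to_comp
  have h1 := addC.comp (mulC.comp hpos hd) (mulC.comp hb hden)
  have h2 := addC.comp (mulC.comp ha hden) (mulC.comp hneg hd)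
  have h3 : Computable (fun a : (ℕ × ℕ × ℕ) × ℕ => decide
      (pos (Denumerable.ofNat ℚ a.2) * (a.1.2.2 + 1) + a.1.2.1 * (den' (Denumerable.ofNat ℚ a.2) + 1)
      = a.1.1 * (den' (Denumerable.ofNat ℚ a.2) + 1) + neg (Denumerable.ofNat ℚ a.2) * (a.1.2.2 + 1))) := by
    have eqC : Computable₂ (fun x y : ℕ => decide (x = y)) := by
      have := (Primrec.eq (α := ℕ)).decide
      exact this.to_comp
    exact eqC.comp h1 h2
  have h4 : Computable₂ (fun (p : ℕ × ℕ × ℕ) (N : ℕ) => decide
      (pos (Denumerable.ofNat ℚ N) * (p.2.2 + 1) + p.2.1 * (den' (Denumerable.ofNat ℚ N) + 1)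
      = p.1 * (den' (Denumerable.ofNat ℚ N) + 1) + neg (Denumerable.ofNat ℚ N) * (p.2.2 + 1))) := h3
  have hex : ∀ p : ℕ × ℕ × ℕ, ∃ N, decide
      (pos (Denumerable.ofNat ℚ N) * (p.2.2 + 1) + p.2.1 * (den' (Denumerable.ofNat ℚ N) + 1)
      = p.1 * (den' (Denumerable.ofNat ℚ N) + 1) + neg (Denumerable.ofNat ℚ N) * (p.2.2 + 1)) = true := by
    intro p
    refine ⟨@Encodable.encode ℚ Denumerable.toEncodable (mk p.1 p.2.1 p.2.2), ?_⟩
    rw [Denumerable.ofNat_encode, decide_eq_true_iff]
    exact (eq_mk_iff _ _ _ _).1 rfl
  have h5 := computable_find h4 hex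
  refine ((Computable.ofNat ℚ).comp h5).of_eq ?_
  intro p
  rw [eq_mk_iff]
  have := Nat.find_spec (hex p)
  rw [decide_eq_true_iff] at this
  exact this

/-! ### Field operations and order -/

section ops

variable {α : Type*} [Primcodable α]

theorem nmul {f g : α → ℕ} (hf : Computable f) (hg : Computable g) :
    Computable (fun a => f a * g a) := (Primrec.nat_mul.to_comp).comp hf hg
theorem nadd {f g : α → ℕ} (hf : Computable f) (hg : Computable g) :
    Computable (fun a => f a + g a) := (Primrec.nat_add.to_comp).comp hf hg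
theorem nsub {f g : α → ℕ} (hf : Computable f) (hg : Computable g) :
    Computable (fun a => f a - g a) := (Primrec.nat_sub.to_comp).comp hf hg
theorem ndiv {f g : α → ℕ} (hf : Computable f) (hg : Computable g) :
    Computable (fun a => f a / g a) := (Primrec.nat_div.to_comp).comp hf hg
theorem nmod {f g : α → ℕ} (hf : Computable f) (hg : Computable g) :
    Computable (fun a => f a % g a) := (Primrec.nat_mod.to_comp).comp hf hg
theorem nsucc {f : α → ℕ} (hf : Computable f) :
    Computable (fun a => f a + 1) := Computable.succ.comp hf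

theorem cmk {f g h : α → ℕ} (hf : Computable f) (hg : Computable g) (hh : Computable h) :
    Computable (fun a => mk (f a) (g a) (h a)) :=
  Computable.comp (f := fun p : ℕ × ℕ × ℕ => mk p.1 p.2.1 p.2.2)
    (g := fun a => (f a, g a, h a)) computable_mk (hf.pair (hg.pair hh))

theorem rat_add {f g : α → ℚ} (hf : Computable f) (hg : Computable g) :
    Computable (fun a => f a + g a) := by
  have pf := computable_pos.comp hf
  have nf := computable_neg'.comp hf
  have df := computable_den'.comp hf
  have pg := computable_pos.comp hg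
  have ng := computable_neg'.comp hg
  have dg := computable_den'.comp hg
  refine (cmk (nadd (nmul pf (nsucc dg)) (nmul pg (nsucc df)))
    (nadd (nmul nf (nsucc dg)) (nmul ng (nsucc df)))
    (nadd (nadd (nmul df dg) df) dg)).of_eq ?_
  intro a
  conv_rhs => rw [parts_eq (f a), parts_eq (g a)]
  unfold mk
  have h1 : ((den' (f a) : ℚ) + 1) ≠ 0 := by positivity
  have h2 : ((den' (g a) : ℚ) + 1) ≠ 0 := by positivity
  have h3 : (((den' (f a) * den' (g a) + den' (f a) + den' (g a) : ℕ) : ℚ) + 1) =
    ((den' (f a) : ℚ) + 1) * ((den' (g a) : ℚ) + 1) := by push_cast; ring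
  rw [h3, div_add_div _ _ h1 h2]
  push_cast
  congr 1
  ring

theorem rat_neg {f : α → ℚ} (hf : Computable f) : Computable (fun a => - f a) := by
  have pf := computable_pos.comp hf
  have nf := computable_neg'.comp hf
  have df := computable_den'.comp hf
  refine (cmk nf pf df).of_eq ?_
  intro a
  conv_rhs => rw [parts_eq (f a)]
  unfold mk
  rw [← neg_div]
  congr 1
  ring

theorem rat_sub {f g : α → ℚ} (hf : Computable f) (hg : Computable g) :
    Computable (fun a => f a - g a) := by
  refine (rat_add hf (rat_neg hg)).of_eq ?_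
  intro a; ring

theorem rat_mul {f g : α → ℚ} (hf : Computable f) (hg : Computable g) :
    Computable (fun a => f a * g a) := by
  have pf := computable_pos.comp hf
  have nf := computable_neg'.comp hf
  have df := computable_den'.comp hf
  have pg := computable_pos.comp hg
  have ng := computable_neg'.comp hg
  have dg := computable_den'.comp hg
  refine (cmk (nadd (nmul pf pg) (nmul nf ng)) (nadd (nmul pf ng) (nmul nf pg))
    (nadd (nadd (nmul df dg) df) dg)).of_eq ?_
  intro a
  conv_rhs => rw [parts_eq (f a), parts_eq (g a)]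
  unfold mk
  have h3 : (((den' (f a) * den' (g a) + den' (f a) + den' (g a) : ℕ) : ℚ) + 1) =
    ((den' (f a) : ℚ) + 1) * ((den' (g a) : ℚ) + 1) := by push_cast; ring
  have h1 : ((den' (f a) : ℚ) + 1) ≠ 0 := by positivity
  have h2 : ((den' (g a) : ℚ) + 1) ≠ 0 := by positivity
  rw [h3]
  push_cast
  field_simp
  ring

theorem rat_natCast {f : α → ℕ} (hf : Computable f) : Computable (fun a => (f a : ℚ)) := by
  refine (cmk hf (Computable.const 0) (Computable.const 0)).of_eq ?_
  intro a; simp [mk]

/-- `1/(n+1)` is computable in `n` -/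
theorem rat_one_div_succ {f : α → ℕ} (hf : Computable f) :
    Computable (fun a => 1 / ((f a : ℚ) + 1)) := by
  refine (cmk (Computable.const 1) (Computable.const 0) hf).of_eq ?_
  intro a; simp [mk]

theorem rat_le {f g : α → ℚ} (hf : Computable f) (hg : Computable g) :
    Computable (fun a => decide (f a ≤ g a)) := by
  have pf := computable_pos.comp hf
  have nf := computable_neg'.comp hf
  have df := computable_den'.comp hf
  have pg := computable_pos.comp hg
  have ng := computable_neg'.comp hg
  have dg := computable_den'.comp hg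
  have leC : Computable₂ (fun x y : ℕ => decide (x ≤ y)) := by
    have := (Primrec.nat_le).decide
    exact this.to_comp
  refine (leC.comp (nadd (nmul pf (nsucc dg)) (nmul ng (nsucc df)))
    (nadd (nmul pg (nsucc df)) (nmul nf (nsucc dg)))).of_eq ?_
  intro a
  rw [decide_eq_decide]
  conv_rhs => rw [parts_eq (f a), parts_eq (g a)]
  have h1 : (0 : ℚ) < ((den' (f a) : ℚ) + 1) := by positivity
  have h2 : (0 : ℚ) < ((den' (g a) : ℚ) + 1) := by positivity
  rw [div_le_div_iff₀ h1 h2]
  constructor
  · intro h
    have : ((pos (f a) * (den' (g a) + 1) + neg (g a) * (den' (f a) + 1) : ℕ) : ℚ) ≤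
      ((pos (g a) * (den' (f a) + 1) + neg (f a) * (den' (g a) + 1) : ℕ) : ℚ) := by
        exact_mod_cast h
    push_cast at this
    linarith
  · intro h
    have : ((pos (f a) * (den' (g a) + 1) + neg (g a) * (den' (f a) + 1) : ℕ) : ℚ) ≤
      ((pos (g a) * (den' (f a) + 1) + neg (f a) * (den' (g a) + 1) : ℕ) : ℚ) := by
        push_cast
        linarith
    exact_mod_cast this

theorem rat_ite_le {β : Type*} [Primcodable β] {f g : α → ℚ} {u v : α → β} (hf : Computable f)
    (hg : Computable g) (hu : Computable u) (hv : Computable v) :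
    Computable (fun a => if f a ≤ g a then u a else v a) := by
  refine (Computable.cond (rat_le hf hg) hu hv).of_eq ?_
  intro a
  by_cases h : f a ≤ g a <;> simp [h]

/-- finite sums with computable bounds and summands -/
theorem rat_sum {f : α → ℕ → ℚ} {g : α → ℕ} (hf : Computable₂ f) (hg : Computable g) :
    Computable (fun a => ∑ i ∈ Finset.range (g a), f a i) := by
  have h : Computable₂ (fun (a : α) (p : ℕ × ℚ) => p.2 + f a p.1) :=
    rat_add (Computable.snd.comp Computable.snd)
      (hf.comp Computable.fst (Computable.fst.comp Computable.snd))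
  refine (Computable.nat_rec (f := g) (g := fun _ => (0 : ℚ)) hg (Computable.const 0) h).of_eq ?_
  intro a
  induction g a with
  | zero => simp
  | succ n ih => rw [Finset.sum_range_succ, ← ih]

theorem nat_sum {f : α → ℕ → ℕ} {g : α → ℕ} (hf : Computable₂ f) (hg : Computable g) :
    Computable (fun a => ∑ i ∈ Finset.range (g a), f a i) := by
  have h : Computable₂ (fun (a : α) (p : ℕ × ℕ) => p.2 + f a p.1) :=
    nadd (Computable.snd.comp Computable.snd)
      (hf.comp Computable.fst (Computable.fst.comp Computable.snd))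
  refine (Computable.nat_rec (f := g) (g := fun _ => (0 : ℕ)) hg (Computable.const 0) h).of_eq ?_
  intro a
  induction g a with
  | zero => simp
  | succ n ih => rw [Finset.sum_range_succ, ← ih]

theorem nat_pow {f g : α → ℕ} (hf : Computable f) (hg : Computable g) :
    Computable (fun a => f a ^ g a) := by
  have h : Computable₂ (fun (a : α) (p : ℕ × ℕ) => p.2 * f a) :=
    nmul (Computable.snd.comp Computable.snd) (hf.comp Computable.fst)
  refine (Computable.nat_rec (f := g) (g := fun _ => (1 : ℕ)) hg (Computable.const 1) h).of_eq ?_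
  intro a
  induction g a with
  | zero => simp
  | succ n ih => rw [pow_succ, ← ih]

theorem rat_pow {f : α → ℚ} {g : α → ℕ} (hf : Computable f) (hg : Computable g) :
    Computable (fun a => f a ^ g a) := by
  have h : Computable₂ (fun (a : α) (p : ℕ × ℚ) => p.2 * f a) :=
    rat_mul (Computable.snd.comp Computable.snd) (hf.comp Computable.fst)
  refine (Computable.nat_rec (f := g) (g := fun _ => (1 : ℚ)) hg (Computable.const 1) h).of_eq ?_
  intro a
  induction g a with
  | zero => simp
  | succ n ih => rw [pow_succ, ← ih]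

end ops

end Crest.Agent.RatComp
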