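import Mathlib
import Crest.Agent.RatComp

/-! Computable families of reals: `RC f` says that `f : α → ℝ` is approximable by a computable
rational-valued function to any precision `1/(n+1)`. -/

namespace Crest.Agent.RealComp

open Crest.Agent.RatComp

variable {α β : Type*} [Primcodable α] [Primcodable β]

def RC (f : α → ℝ) : Prop :=
  ∃ e : α × ℕ → ℚ, Computable e ∧ ∀ a n, |f a - (e (a, n) : ℝ)| ≤ 1 / ((n : ℝ) + 1)

theorem RC.of_eq {f g : α → ℝ} (h : RC f) (e : ∀ a, f a = g a) : RC g := by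
  rw [show g = f from funext fun a => (e a).symm]; exact h

theorem RC.of_rat {g : α → ℚ} (hg : Computable g) : RC (fun a => (g a : ℝ)) :=
  ⟨fun p => g p.1, hg.comp Computable.fst, fun a n => by
    rw [sub_self, abs_zero]; positivity⟩

theorem RC.comp {f : α → ℝ} {g : β → α} (hf : RC f) (hg : Computable g) :
    RC (fun b => f (g b)) := by
  obtain ⟨e, he, h⟩ := hf
  exact ⟨fun p => e (g p.1, p.2), he.comp ((hg.comp Computable.fst).pair Computable.snd),
    fun a n => h _ _⟩

theorem RC.neg {f : α → ℝ} (hf : RC f) : RC (fun a => - f a) := by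
  obtain ⟨e, he, h⟩ := hf
  refine ⟨fun p => - e p, rat_neg he, fun a n => ?_⟩
  have := h a n
  rw [show -f a - ((-e (a, n) : ℚ) : ℝ) = -(f a - e (a, n)) by push_cast; ring, abs_neg]
  exact this

theorem RC.add {f g : α → ℝ} (hf : RC f) (hg : RC g) : RC (fun a => f a + g a) := by
  obtain ⟨e, he, h⟩ := hf
  obtain ⟨e', he', h'⟩ := hg
  have hc : Computable (fun p : α × ℕ => (p.1, 2 * p.2 + 1)) :=
    Computable.fst.pair (nsucc (nmul (Computable.const 2) Computable.snd))
  refine ⟨fun p => e (p.1, 2 * p.2 + 1) + e' (p.1, 2 * p.2 + 1),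
    rat_add (he.comp hc) (he'.comp hc), fun a n => ?_⟩
  have h1 := h a (2 * n + 1)
  have h2 := h' a (2 * n + 1)
  have e1 : (1:ℝ) / (((2 * n + 1 : ℕ) : ℝ) + 1) = 1 / ((n:ℝ) + 1) / 2 := by
    push_cast
    rw [div_div]
    congr 1
    ring
  rw [e1] at h1 h2
  rw [show f a + g a - ((e (a, 2 * n + 1) + e' (a, 2 * n + 1) : ℚ) : ℝ) =
    (f a - e (a, 2 * n + 1)) + (g a - e' (a, 2 * n + 1)) by push_cast; ring]
  refine (abs_add_le _ _).trans ?_
  linarith

theorem RC.sub {f g : α → ℝ} (hf : RC f) (hg : RC g) : RC (fun a => f a - g a) :=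
  (hf.add hg.neg).of_eq fun a => by ring

theorem abs_le_parts (q : ℚ) : |(q : ℝ)| ≤ ((pos q + neg q : ℕ) : ℝ) := by
  have h := parts_eq q
  have h1 : |q| ≤ ((pos q + neg q : ℕ) : ℚ) := by
    rw [show |q| = |((pos q : ℚ) - (neg q : ℚ)) / ((den' q : ℚ) + 1)| by rw [← h]]
    rw [abs_div]
    have h2 : |((den' q : ℚ) + 1)| = (den' q : ℚ) + 1 := abs_of_nonneg (by positivity)
    rw [h2]
    have h3 : |((pos q : ℚ) - (neg q : ℚ))| ≤ ((pos q + neg q : ℕ) : ℚ) := by
      rw [abs_le]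
      push_cast
      have := (Nat.cast_nonneg (pos q) : (0:ℚ) ≤ pos q)
      have := (Nat.cast_nonneg (neg q) : (0:ℚ) ≤ neg q)
      constructor <;> linarith
    refine (div_le_self (abs_nonneg _) ?_).trans h3
    have := (Nat.cast_nonneg (den' q) : (0:ℚ) ≤ den' q)
    linarith
  have h4 : ((|q| : ℚ) : ℝ) ≤ (((pos q + neg q : ℕ) : ℚ) : ℝ) := by exact_mod_cast h1
  push_cast at h4 ⊢
  exact h4

theorem RC.bdd {f : α → ℝ} (hf : RC f) : ∃ B : α → ℕ, Computable B ∧ ∀ a, |f a| ≤ (B a : ℝ) := by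
  obtain ⟨e, he, h⟩ := hf
  refine ⟨fun a => pos (e (a, 0)) + RatComp.neg (e (a, 0)) + 1, ?_, fun a => ?_⟩
  · have h1 : Computable (fun a : α => e (a, 0)) := he.comp (Computable.id.pair (Computable.const 0))
    exact nsucc (nadd (computable_pos.comp h1) (computable_neg'.comp h1))
  · have h1 := h a 0
    have h2 := abs_le_parts (e (a, 0))
    have h3 : |f a| ≤ |f a - e (a, 0)| + |(e (a, 0) : ℝ)| := by
      have := abs_add_le (f a - e (a, 0)) (e (a, 0) : ℝ)
      rwa [sub_add_cancel] at this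
    push_cast at h1 h2 ⊢
    norm_num at h1
    linarith

theorem RC.mul {f g : α → ℝ} (hf : RC f) (hg : RC g) : RC (fun a => f a * g a) := by
  obtain ⟨B, hB, hfB⟩ := hf.bdd
  obtain ⟨C, hC, hgC⟩ := hg.bdd
  obtain ⟨e, he, h⟩ := hf
  obtain ⟨e', he', h'⟩ := hg
  have hK : Computable (fun p : α × ℕ => (p.1, (p.2 + 1) * (B p.1 + C p.1 + 1))) :=
    Computable.fst.pair (nmul (nsucc Computable.snd)
      (nsucc (nadd (hB.comp Computable.fst) (hC.comp Computable.fst))))
  refine ⟨fun p => e (p.1, (p.2 + 1) * (B p.1 + C p.1 + 1)) *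
    e' (p.1, (p.2 + 1) * (B p.1 + C p.1 + 1)), rat_mul (he.comp hK) (he'.comp hK), fun a n => ?_⟩
  dsimp only
  set K := (n + 1) * (B a + C a + 1) with hKdef
  have h1 := h a K
  have h2 := h' a K
  have h3 := hfB a
  have h4 := hgC a
  have hK0 : (0:ℝ) < (K:ℝ) + 1 := by positivity
  have h5 : |(e (a, K) : ℝ)| ≤ B a + 1 := by
    have : |(e (a, K) : ℝ)| ≤ |f a - e (a, K)| + |f a| := by
      have := abs_add_le (-(f a - e (a, K))) (f a)
      rw [abs_neg] at this
      rwa [show -(f a - (e (a, K) : ℝ)) + f a = e (a, K) by ring] at this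
    have h6 : (1:ℝ) / ((K:ℝ) + 1) ≤ 1 := by
      rw [div_le_one hK0]
      have := (Nat.cast_nonneg K : (0:ℝ) ≤ K)
      linarith
    linarith
  have h6 : |f a * g a - ((e (a, K) * e' (a, K) : ℚ) : ℝ)| ≤ 1 / ((K:ℝ) + 1) * (B a + C a + 1) := by
    rw [show f a * g a - ((e (a, K) * e' (a, K) : ℚ) : ℝ) =
      (f a - e (a, K)) * g a + e (a, K) * (g a - e' (a, K)) by push_cast; ring]
    refine (abs_add_le _ _).trans ?_
    rw [abs_mul, abs_mul]
    have i1 : |f a - e (a, K)| * |g a| ≤ 1 / ((K:ℝ) + 1) * C a :=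
      mul_le_mul h1 h4 (abs_nonneg _) (by positivity)
    have i2 : |(e (a, K) : ℝ)| * |g a - e' (a, K)| ≤ (B a + 1) * (1 / ((K:ℝ) + 1)) :=
      mul_le_mul h5 h2 (abs_nonneg _) (by positivity)
    linarith
  refine h6.trans ?_
  rw [div_mul_eq_mul_div, one_mul, div_le_div_iff₀ hK0 (by positivity)]
  rw [hKdef]
  push_cast
  nlinarith [(Nat.cast_nonneg n : (0:ℝ) ≤ n), (Nat.cast_nonneg (B a) : (0:ℝ) ≤ B a)]

theorem RC.sum {f : α → ℕ → ℝ} {g : α → ℕ} (hf : RC (fun p : α × ℕ => f p.1 p.2))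
    (hg : Computable g) : RC (fun a => ∑ i ∈ Finset.range (g a), f a i) := by
  obtain ⟨e, he, h⟩ := hf
  refine ⟨fun p => ∑ i ∈ Finset.range (g p.1), e ((p.1, i), (p.2 + 1) * g p.1), ?_, fun a n => ?_⟩
  · have : Computable₂ (fun (p : α × ℕ) (i : ℕ) => e ((p.1, i), (p.2 + 1) * g p.1)) := by
      have h1 : Computable (fun x : (α × ℕ) × ℕ => ((x.1.1, x.2), (x.1.2 + 1) * g x.1.1)) :=
        ((Computable.fst.comp Computable.fst).pair Computable.snd).pair
          (nmul (nsucc (Computable.snd.comp Computable.fst))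
            (hg.comp (Computable.fst.comp Computable.fst)))
      exact (he.comp h1).to₂
    exact rat_sum this (hg.comp Computable.fst)
  · dsimp only
    set K := (n + 1) * g a with hK
    have h1 : |∑ i ∈ Finset.range (g a), f a i -
        ((∑ i ∈ Finset.range (g a), e ((a, i), K) : ℚ) : ℝ)| ≤ (g a : ℝ) * (1 / ((K:ℝ) + 1)) := by
      push_cast
      rw [← Finset.sum_sub_distrib]
      refine (Finset.abs_sum_le_sum_abs _ _).trans ?_
      refine (Finset.sum_le_sum fun i _ => h (a, i) K).trans ?_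
      rw [Finset.sum_const, Finset.card_range, nsmul_eq_mul]
    refine h1.trans ?_
    rw [mul_one_div, div_le_div_iff₀ (by positivity) (by positivity), hK]
    push_cast
    nlinarith [(Nat.cast_nonneg (g a) : (0:ℝ) ≤ g a)]

/-- a uniformly computable limit -/
theorem RC.lim {f : α → ℝ} (h : ∃ e : α × ℕ → ℚ, Computable e ∧
    ∀ a n, |f a - (e (a, n) : ℝ)| ≤ 1 / ((n : ℝ) + 1)) : RC f := h

theorem RC.fin_sum {ι : Type*} (s : Finset ι) {f : ι → α → ℝ} (hf : ∀ i ∈ s, RC (f i)) :
    RC (fun a => ∑ i ∈ s, f i a) := by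
  classical
  induction s using Finset.induction_on with
  | empty =>
    simp only [Finset.sum_empty]
    exact (RC.of_rat (Computable.const 0)).of_eq fun a => by simp
  | insert i s hi ih =>
    refine ((hf i (Finset.mem_insert_self i s)).add
      (ih fun j hj => hf j (Finset.mem_insert_of_mem hj))).of_eq fun a => ?_
    rw [Finset.sum_insert hi]

theorem RC.fin_prod {ι : Type*} (s : Finset ι) {f : ι → α → ℝ} (hf : ∀ i ∈ s, RC (f i)) :
    RC (fun a => ∏ i ∈ s, f i a) := by
  classical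
  induction s using Finset.induction_on with
  | empty =>
    simp only [Finset.prod_empty]
    exact (RC.of_rat (Computable.const 1)).of_eq fun a => by simp
  | insert i s hi ih =>
    refine ((hf i (Finset.mem_insert_self i s)).mul
      (ih fun j hj => hf j (Finset.mem_insert_of_mem hj))).of_eq fun a => ?_
    rw [Finset.prod_insert hi]

end Crest.Agent.RealComp
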