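import Mathlib

set_option autoImplicit false

namespace Crest.Agent.S0109

open MeasureTheory Filter Set
open scoped Topology ENNReal

/-- measurable, bounded, supported in a bounded interval -/
def Nice1 (f : ℝ → ℝ) : Prop :=
  Measurable f ∧ (∃ B, ∀ x, |f x| ≤ B) ∧ (∃ L, ∀ x, f x ≠ 0 → |x| ≤ L)

lemma Nice1.integrable {f : ℝ → ℝ} (hf : Nice1 f) : Integrable f := by
  obtain ⟨hm, ⟨B, hB⟩, ⟨L, hL⟩⟩ := hf
  have h1 : IntegrableOn f (Icc (-L) L) := by
    apply Measure.integrableOn_of_bounded (M := B) _ hm.aestronglyMeasurable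
    · filter_upwards with x; exact hB x
    · simp
  refine (integrableOn_iff_integrable_of_support_subset ?_).mp h1
  intro x hx
  exact abs_le.mp (hL x hx)

/-- Quantile function of a nice probability density. -/
theorem exists_quantile (f : ℝ → ℝ) (hf : Nice1 f) (h0 : ∀ x, 0 ≤ f x) (h1 : ∫ x, f x = 1) :
    ∃ q : ℝ → ℝ, Monotone q ∧ StrictMonoOn q (Ioo 0 1) ∧
      (volume.restrict (Ioo (0 : ℝ) 1)).map q = volume.withDensity (fun x => ENNReal.ofReal (f x)) ∧
      ∀ᵐ s ∂(volume.restrict (Ioo (0 : ℝ) 1)), HasDerivAt q (f (q s))⁻¹ s ∧ 0 < f (q s) := by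
  have hint := hf.integrable
  obtain ⟨hm, ⟨B, hB⟩, ⟨L, hL⟩⟩ := hf
  set F : ℝ → ℝ := fun x => ∫ t in Iic x, f t with hF
  have hFmono : Monotone F := by
    intro x y hxy
    apply setIntegral_mono_set hint.integrableOn
    · filter_upwards with t using h0 t
    · exact (Iic_subset_Iic.mpr hxy).eventuallyLE
  have hFeq : ∀ a x, F x = F a + ∫ t in a..x, f t := by
    intro a x
    have := intervalIntegral.integral_Iic_sub_Iic (a := a) (b := x) (f := f) (μ := volume)
      hint.integrableOn hint.integrableOn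
    simp only [hF]
    linarith
  have hFcont : Continuous F := by
    have : F = fun x => F 0 + ∫ t in (0 : ℝ)..x, f t := by
      funext x; exact hFeq 0 x
    rw [this]
    exact continuous_const.add (intervalIntegral.continuous_primitive
      (fun a b => hint.intervalIntegrable) 0)
  have hF0 : ∀ x, x < -L → F x = 0 := by
    intro x hx
    apply setIntegral_eq_zero_of_forall_eq_zero
    intro t ht
    by_contra hne
    have := (abs_le.mp (hL t hne)).1
    have : t ≤ x := ht
    linarith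
  have hF1 : ∀ x, L < x → F x = 1 := by
    intro x hx
    rw [← h1]
    rw [← setIntegral_univ (μ := volume) (f := f)]
    symm
    apply setIntegral_eq_of_subset_of_forall_sdiff_eq_zero MeasurableSet.univ (subset_univ _)
    intro t ht
    by_contra hne
    have h2 := (abs_le.mp (hL t hne)).2
    have h3 : ¬ t ≤ x := ht.2
    push Not at h3
    linarith
  -- L is nonnegative-ish bound; choose interval [-(|L|+1), |L|+1]
  set R := |L| + 1 with hR
  have hLR : L < R := by have := le_abs_self L; linarith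
  have hRL : -R < -L := by linarith
  have hR0 : 0 < R := by positivity
  have hex : ∀ s ∈ Ioo (0 : ℝ) 1, ∃ x, x ∈ Icc (-R) R ∧ F x = s := by
    intro s hs
    have hsub := intermediate_value_Icc (by linarith : -R ≤ R) hFcont.continuousOn
    have hFa : F (-R) = 0 := hF0 _ hRL
    have hFb : F R = 1 := hF1 _ hLR
    rw [hFa, hFb] at hsub
    obtain ⟨x, hx, hxs⟩ := hsub ⟨hs.1.le, hs.2.le⟩
    exact ⟨x, hx, hxs⟩
  choose! q₀ hq₀ using hex
  set q : ℝ → ℝ := fun s => if s ≤ 0 then -R else if 1 ≤ s then R else q₀ s with hq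
  have hqval : ∀ s ∈ Ioo (0 : ℝ) 1, q s = q₀ s := by
    intro s hs
    simp only [hq]
    rw [if_neg (not_le.mpr hs.1), if_neg (not_le.mpr hs.2)]
  have hFq : ∀ s ∈ Ioo (0 : ℝ) 1, F (q s) = s := by
    intro s hs; rw [hqval s hs]; exact (hq₀ s hs).2
  have hstrict : StrictMonoOn q (Ioo 0 1) := by
    intro s hs s' hs' hlt
    by_contra hcon
    push Not at hcon
    have := hFmono hcon
    rw [hFq s hs, hFq s' hs'] at this
    linarith
  have hmono : Monotone q := by
    intro s s' hss
    by_cases h1 : s ≤ 0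
    · have : q s = -R := by simp only [hq]; rw [if_pos h1]
      rw [this]
      simp only [hq]
      split_ifs with h2 h3
      · exact le_refl _
      · linarith
      · exact (hq₀ s' ⟨not_le.mp h2, not_le.mp h3⟩).1.1
    · by_cases h2 : 1 ≤ s'
      · have : q s' = R := by
          simp only [hq]; rw [if_neg (by linarith), if_pos h2]
        rw [this]
        simp only [hq]
        split_ifs with h3 h4
        · exact le_refl _
        · exact (hq₀ s ⟨not_le.mp h1, not_le.mp h3⟩).1.2
      · have hs : s ∈ Ioo (0 : ℝ) 1 := ⟨not_le.mp h1, by linarith [not_le.mp h2]⟩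
        have hs' : s' ∈ Ioo (0 : ℝ) 1 := ⟨by linarith [not_le.mp h1], not_le.mp h2⟩
        exact hstrict.monotoneOn hs hs' hss
  have hqm : Measurable q := hmono.measurable
  have hmap : (volume.restrict (Ioo (0 : ℝ) 1)).map q
      = volume.withDensity (fun x => ENNReal.ofReal (f x)) := by
    have : IsFiniteMeasure ((volume.restrict (Ioo (0 : ℝ) 1)).map q) := by
      infer_instance
    have : IsFiniteMeasure (volume.withDensity (fun x => ENNReal.ofReal (f x))) := by
      apply isFiniteMeasure_withDensity_ofReal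
      exact hint.2
    apply Measure.ext_of_Iic
    intro x
    rw [Measure.map_apply hqm measurableSet_Iic, withDensity_apply _ measurableSet_Iic,
      Measure.restrict_apply (hqm measurableSet_Iic)]
    have hFx0 : 0 ≤ F x := setIntegral_nonneg measurableSet_Iic (fun t _ => h0 t)
    have hFx1 : F x ≤ 1 := by
      rw [← h1]
      exact setIntegral_le_integral hint (by filter_upwards with t using h0 t)
    have hRHS : ∫⁻ t in Iic x, ENNReal.ofReal (f t) = ENNReal.ofReal (F x) := by
      rw [← ofReal_integral_eq_lintegral_ofReal hint.integrableOn]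
      filter_upwards with t using h0 t
    rw [hRHS]
    apply le_antisymm
    · calc volume (q ⁻¹' Iic x ∩ Ioo 0 1) ≤ volume (Ioc 0 (F x)) := by
            apply measure_mono
            rintro s ⟨hs1, hs2⟩
            have h3 : q s ≤ x := hs1
            have h4 := hFmono h3
            rw [hFq s hs2] at h4
            exact ⟨hs2.1, h4⟩
        _ = ENNReal.ofReal (F x) := by rw [Real.volume_Ioc]; simp
    · calc ENNReal.ofReal (F x) = volume (Ioo 0 (F x)) := by rw [Real.volume_Ioo]; simp
        _ ≤ _ := by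
            apply measure_mono
            rintro s ⟨hs1, hs2⟩
            have hs : s ∈ Ioo (0 : ℝ) 1 := ⟨hs1, by linarith⟩
            refine ⟨?_, hs⟩
            show q s ≤ x
            by_contra hcon
            push Not at hcon
            have h4 := hFmono hcon.le
            rw [hFq s hs] at h4
            linarith
  refine ⟨q, hmono, hstrict, hmap, ?_⟩
  -- a.e. differentiability
  have hd1 : ∀ᵐ s ∂(volume.restrict (Ioo (0 : ℝ) 1)), DifferentiableAt ℝ q s :=
    ae_restrict_of_ae hmono.ae_differentiableAt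
  have hd2 : ∀ᵐ x, HasDerivAt F (f x) x := by
    filter_upwards [LocallyIntegrable.ae_hasDerivAt_integral hint.locallyIntegrable] with x hx
    have h3 := hx 0
    have : F = fun x => F 0 + ∫ t in (0 : ℝ)..x, f t := by
      funext x; exact hFeq 0 x
    rw [this]
    exact h3.const_add _
  have hd3 : ∀ᵐ s ∂(volume.restrict (Ioo (0 : ℝ) 1)), HasDerivAt F (f (q s)) (q s) := by
    have h4 : ∀ᵐ x ∂((volume.restrict (Ioo (0 : ℝ) 1)).map q), HasDerivAt F (f x) x := by
      rw [hmap]
      exact (withDensity_absolutelyContinuous _ _).ae_le hd2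
    exact ae_of_ae_map hqm.aemeasurable h4
  filter_upwards [hd1, hd3, ae_restrict_mem measurableSet_Ioo] with s hs1 hs2 hs3
  have hq' := hs1.hasDerivAt
  have hcomp : HasDerivAt (F ∘ q) (f (q s) * deriv q s) s := hs2.comp s hq'
  have hid : HasDerivAt (F ∘ q) 1 s := by
    apply (hasDerivAt_id s).congr_of_eventuallyEq
    filter_upwards [Ioo_mem_nhds hs3.1 hs3.2] with s' hs'
    exact hFq s' hs'
  have heq := hcomp.unique hid
  have hne : f (q s) ≠ 0 := by
    intro hz; rw [hz, zero_mul] at heq; exact zero_ne_one heq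
  have hd : deriv q s = (f (q s))⁻¹ := by
    field_simp
    linarith
  rw [hd] at hq'
  exact ⟨hq', lt_of_le_of_ne (h0 _) (Ne.symm hne)⟩

lemma integral_comp_quantile (f : ℝ → ℝ) (hf : Measurable f) (h0 : ∀ x, 0 ≤ f x)
    (q : ℝ → ℝ) (hqm : Measurable q)
    (hmap : (volume.restrict (Ioo (0 : ℝ) 1)).map q
      = volume.withDensity (fun x => ENNReal.ofReal (f x))) (a : ℝ → ℝ) (ha : Measurable a) :
    ∫ s in Ioo (0 : ℝ) 1, a (q s) = ∫ x, a x * f x := by
  rw [← integral_map (μ := volume.restrict (Ioo (0 : ℝ) 1)) hqm.aemeasurable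
    ha.aestronglyMeasurable, hmap]
  rw [integral_withDensity_eq_integral_toReal_smul hf.ennreal_ofReal
    (by filter_upwards with x; exact ENNReal.ofReal_lt_top)]
  apply integral_congr_ae
  filter_upwards with x
  rw [ENNReal.toReal_ofReal (h0 x), smul_eq_mul, mul_comm]

/-- One-dimensional additive Prekopa-Leindler inequality (normalised). -/
theorem addPL_one (t : ℝ) (ht : t ∈ Ioo (0 : ℝ) 1) (f₀ f₁ h a b : ℝ → ℝ)
    (hf₀ : Nice1 f₀) (hf₁ : Nice1 f₁) (hh : Nice1 h)
    (ha : Measurable a) (hb : Measurable b) (B : ℝ) (haB : ∀ x, |a x| ≤ B) (hbB : ∀ x, |b x| ≤ B)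
    (f₀0 : ∀ x, 0 ≤ f₀ x) (f₁0 : ∀ x, 0 ≤ f₁ x) (h0 : ∀ x, 0 ≤ h x)
    (I₀ : ∫ x, f₀ x = 1) (I₁ : ∫ x, f₁ x = 1)
    (H : ∀ x x', 0 < f₀ x → 0 < f₁ x' →
      a x + b x' ≤ h ((1 - t) * x + t * x') * ((f₀ x) ^ (-(1 - t)) * (f₁ x') ^ (-t))) :
    (∫ x, a x * f₀ x) + (∫ x, b x * f₁ x) ≤ ∫ x, h x := by
  obtain ⟨q₀, hq₀m, hq₀s, hq₀map, hq₀d⟩ := exists_quantile f₀ hf₀ f₀0 I₀
  obtain ⟨q₁, hq₁m, hq₁s, hq₁map, hq₁d⟩ := exists_quantile f₁ hf₁ f₁0 I₁
  have ht0 : 0 < t := ht.1
  have ht1 : 0 < 1 - t := by linarith [ht.2]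
  -- a good measurable set of full measure
  have hae := hq₀d.and hq₁d
  rw [ae_iff] at hae
  obtain ⟨N, hNsub, hNm, hN0⟩ := exists_measurable_superset_of_null hae
  set S := Ioo (0 : ℝ) 1 \ N with hS
  have hSm : MeasurableSet S := measurableSet_Ioo.diff hNm
  have hSgood : ∀ s ∈ S, (HasDerivAt q₀ (f₀ (q₀ s))⁻¹ s ∧ 0 < f₀ (q₀ s)) ∧
      (HasDerivAt q₁ (f₁ (q₁ s))⁻¹ s ∧ 0 < f₁ (q₁ s)) := by
    intro s hs
    by_contra hcon
    exact hs.2 (hNsub hcon)
  have hSae : (volume.restrict (Ioo (0 : ℝ) 1)) = volume.restrict S := by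
    have h1 : volume (Ioo (0 : ℝ) 1 ∩ N) = 0 := by
      rw [Measure.restrict_apply hNm] at hN0
      rw [inter_comm]; exact hN0
    symm
    apply Measure.restrict_congr_set
    rw [hS]
    have : (Ioo (0 : ℝ) 1 \ N : Set ℝ) =ᵐ[volume] Ioo (0 : ℝ) 1 := by
      rw [← diff_inter_self_eq_diff]
      apply diff_null_ae_eq_self
      rw [inter_comm]; exact h1
    exact this
  set z : ℝ → ℝ := fun s => (1 - t) * q₀ s + t * q₁ s with hz
  set z' : ℝ → ℝ := fun s => (1 - t) * (f₀ (q₀ s))⁻¹ + t * (f₁ (q₁ s))⁻¹ with hz'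
  have hderiv : ∀ s ∈ S, HasDerivWithinAt z (z' s) S s := by
    intro s hs
    obtain ⟨⟨h1, -⟩, ⟨h2, -⟩⟩ := hSgood s hs
    exact ((h1.const_mul (1 - t)).add (h2.const_mul t)).hasDerivWithinAt
  have hSI : S ⊆ Ioo 0 1 := diff_subset
  have hinj : InjOn z S := by
    have : StrictMonoOn z (Ioo 0 1) := by
      intro s hs s' hs' hlt
      have h1 := hq₀s hs hs' hlt
      have h2 := hq₁s hs hs' hlt
      simp only [hz]
      nlinarith
    exact (this.mono hSI).injOn
  have hz'pos : ∀ s ∈ S, 0 < z' s := by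
    intro s hs
    obtain ⟨⟨-, h1⟩, ⟨-, h2⟩⟩ := hSgood s hs
    simp only [hz']
    positivity
  have hcov := integral_image_eq_integral_abs_deriv_smul hSm hderiv hinj h
  have hcovi := (integrableOn_image_iff_integrableOn_abs_deriv_smul hSm hderiv hinj h).mp
    hh.integrable.integrableOn
  have hpt : ∀ s ∈ S, a (q₀ s) + b (q₁ s) ≤ |z' s| • h (z s) := by
    intro s hs
    obtain ⟨⟨-, h1⟩, ⟨-, h2⟩⟩ := hSgood s hs
    refine (H _ _ h1 h2).trans ?_
    rw [abs_of_pos (hz'pos s hs), smul_eq_mul, mul_comm (z' s)]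
    apply mul_le_mul_of_nonneg_left _ (h0 _)
    have h3 := Real.geom_mean_le_arith_mean2_weighted ht1.le ht0.le (inv_nonneg.mpr h1.le)
      (inv_nonneg.mpr h2.le) (by ring)
    rw [Real.inv_rpow h1.le, Real.inv_rpow h2.le, ← Real.rpow_neg h1.le, ← Real.rpow_neg h2.le]
      at h3
    exact h3
  have hai : IntegrableOn (fun s => a (q₀ s)) S := by
    apply Measure.integrableOn_of_bounded (M := B) _
      (ha.comp hq₀m.measurable).aestronglyMeasurable
    · filter_upwards with x; exact haB _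
    · exact ((measure_mono hSI).trans_lt (by simp)).ne
  have hbi : IntegrableOn (fun s => b (q₁ s)) S := by
    apply Measure.integrableOn_of_bounded (M := B) _
      (hb.comp hq₁m.measurable).aestronglyMeasurable
    · filter_upwards with x; exact hbB _
    · exact ((measure_mono hSI).trans_lt (by simp)).ne
  rw [← integral_comp_quantile f₀ hf₀.1 f₀0 q₀ hq₀m.measurable hq₀map a ha,
    ← integral_comp_quantile f₁ hf₁.1 f₁0 q₁ hq₁m.measurable hq₁map b hb, hSae,
    ← integral_add hai hbi]
  calc ∫ s in S, (a (q₀ s) + b (q₁ s)) ≤ ∫ s in S, |z' s| • h (z s) :=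
        setIntegral_mono_on (hai.add hbi) hcovi hSm hpt
    _ = ∫ x in z '' S, h x := hcov.symm
    _ ≤ ∫ x, h x := setIntegral_le_integral hh.integrable (by filter_upwards with x using h0 x)

end Crest.Agent.S0109
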