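import Crest.Agent.S0109A

set_option autoImplicit false

namespace Crest.Agent.S0109

open MeasureTheory Filter Set
open scoped Topology ENNReal

/-- measurable, bounded, supported in a box -/
def Nice {n : ℕ} (f : (Fin n → ℝ) → ℝ) : Prop :=
  Measurable f ∧ (∃ B, ∀ x, |f x| ≤ B) ∧ (∃ L, ∀ x, f x ≠ 0 → ∀ i, |x i| ≤ L)

lemma box_lt_top (n : ℕ) (L : ℝ) :
    volume (Icc (fun _ : Fin n => -L) (fun _ => L)) < ∞ := isCompact_Icc.measure_lt_top

lemma Nice.integrable {n : ℕ} {f : (Fin n → ℝ) → ℝ} (hf : Nice f) : Integrable f := by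
  obtain ⟨hm, ⟨B, hB⟩, ⟨L, hL⟩⟩ := hf
  have h1 : IntegrableOn f (Icc (fun _ : Fin n => -L) (fun _ => L)) := by
    apply Measure.integrableOn_of_bounded (M := B) _ hm.aestronglyMeasurable
    · filter_upwards with x; exact hB x
    · exact (box_lt_top n L).ne
  refine (integrableOn_iff_integrable_of_support_subset ?_).mp h1
  intro x hx
  have := hL x hx
  exact ⟨fun i => (abs_le.mp (this i)).1, fun i => (abs_le.mp (this i)).2⟩

lemma measurable_cons {n : ℕ} : Measurable (fun p : ℝ × (Fin n → ℝ) => (Fin.cons p.1 p.2 : Fin (n + 1) → ℝ)) := by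
  rw [measurable_pi_iff]
  intro i
  refine Fin.cases ?_ (fun j => ?_) i
  · simpa using measurable_fst
  · exact (measurable_pi_apply j).comp measurable_snd

lemma Nice.slice {n : ℕ} {f : (Fin (n + 1) → ℝ) → ℝ} (hf : Nice f) (x : ℝ) :
    Nice (fun y : Fin n → ℝ => f (Fin.cons x y)) := by
  obtain ⟨hm, ⟨B, hB⟩, ⟨L, hL⟩⟩ := hf
  refine ⟨hm.comp (measurable_cons.comp measurable_prodMk_left), ⟨B, fun y => hB _⟩,
    ⟨L, fun y hy i => ?_⟩⟩
  simpa using hL _ hy i.succ

lemma integral_abs_le_box {n : ℕ} (f : (Fin n → ℝ) → ℝ) (B L : ℝ)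
    (hB : ∀ x, |f x| ≤ B) (hL : ∀ x, f x ≠ 0 → ∀ i, |x i| ≤ L) :
    |∫ x, f x| ≤ B * (volume (Icc (fun _ : Fin n => -L) (fun _ => L))).toReal := by
  have h1 : ∫ x, f x = ∫ x in Icc (fun _ : Fin n => -L) (fun _ => L), f x := by
    rw [← setIntegral_univ (μ := volume) (f := f)]
    apply setIntegral_eq_of_subset_of_forall_sdiff_eq_zero MeasurableSet.univ (subset_univ _)
    intro x hx
    by_contra hne
    apply hx.2
    have := hL x hne
    exact ⟨fun i => (abs_le.mp (this i)).1, fun i => (abs_le.mp (this i)).2⟩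
  rw [h1, ← Real.norm_eq_abs]
  exact norm_setIntegral_le_of_norm_le_const (box_lt_top n L)
    (fun x _ => by rw [Real.norm_eq_abs]; exact hB x)

lemma Nice.partial {n : ℕ} {f : (Fin (n + 1) → ℝ) → ℝ} (hf : Nice f) :
    Nice1 (fun x : ℝ => ∫ y : Fin n → ℝ, f (Fin.cons x y)) := by
  obtain ⟨hm, ⟨B, hB⟩, ⟨L, hL⟩⟩ := hf
  refine ⟨?_, ⟨B * (volume (Icc (fun _ : Fin n => -L) (fun _ => L))).toReal, fun x => ?_⟩, ⟨L, fun x hx => ?_⟩⟩
  · have h1 : StronglyMeasurable (fun p : ℝ × (Fin n → ℝ) => f (Fin.cons p.1 p.2)) :=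
      (hm.comp measurable_cons).stronglyMeasurable
    exact h1.integral_prod_right'.measurable
  · apply integral_abs_le_box
    · intro y; exact hB _
    · intro y hy i
      simpa using hL _ hy i.succ
  · by_contra hcon
    apply hx
    have : ∀ y : Fin n → ℝ, f (Fin.cons x y) = 0 := by
      intro y
      by_contra hne
      apply hcon
      simpa using hL _ hne 0
    simp [this]

lemma integral_cons {n : ℕ} {f : (Fin (n + 1) → ℝ) → ℝ} (hf : Integrable f) :
    ∫ x, f x = ∫ x : ℝ, ∫ y : Fin n → ℝ, f (Fin.cons x y) := by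
  have hp := (volume_preserving_piFinSuccAbove (fun _ : Fin (n + 1) => ℝ) 0).symm
  have h1 : ∀ p : ℝ × (Fin n → ℝ),
      (MeasurableEquiv.piFinSuccAbove (fun _ : Fin (n + 1) => ℝ) 0).symm p = Fin.cons p.1 p.2 := by
    intro p
    simp [MeasurableEquiv.piFinSuccAbove, Fin.insertNthEquiv]
  rw [← hp.integral_comp (MeasurableEquiv.measurableEmbedding _) f]
  simp only [h1]
  rw [Measure.volume_eq_prod, integral_prod]
  have h2 : Integrable (f ∘ (MeasurableEquiv.piFinSuccAbove (fun _ : Fin (n + 1) => ℝ) 0).symm) :=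
    hp.integrable_comp_of_integrable hf
  refine h2.congr ?_
  filter_upwards with p
  rw [Function.comp_apply, h1]

/-- Additive Prekopa-Leindler inequality in dimension `n` (normalised). -/
theorem addPL (t : ℝ) (ht : t ∈ Ioo (0 : ℝ) 1) : ∀ (n : ℕ) (f₀ f₁ h a b : (Fin n → ℝ) → ℝ)
    (_ : Nice f₀) (_ : Nice f₁) (_ : Nice h)
    (_ : Measurable a) (_ : Measurable b) (B : ℝ) (_ : ∀ x, |a x| ≤ B) (_ : ∀ x, |b x| ≤ B)
    (_ : ∀ x, 0 ≤ f₀ x) (_ : ∀ x, 0 ≤ f₁ x) (_ : ∀ x, 0 ≤ h x)
    (_ : ∫ x, f₀ x = 1) (_ : ∫ x, f₁ x = 1)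
    (_ : ∀ x x', 0 < f₀ x → 0 < f₁ x' →
      a x + b x' ≤ h ((1 - t) • x + t • x') * ((f₀ x) ^ (-(1 - t)) * (f₁ x') ^ (-t))),
    (∫ x, a x * f₀ x) + (∫ x, b x * f₁ x) ≤ ∫ x, h x := by
  intro n
  induction n with
  | zero =>
    intro f₀ f₁ h a b hf₀ hf₁ hh ha hb B haB hbB f₀0 f₁0 h0 I₀ I₁ H
    have hint : ∀ f : (Fin 0 → ℝ) → ℝ, ∫ x, f x = f default := by
      intro f
      rw [Measure.volume_pi_eq_dirac (x := (default : Fin 0 → ℝ)), integral_dirac]
    rw [hint] at I₀ I₁
    rw [hint, hint, hint]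
    have h1 := H default default (by rw [I₀]; norm_num) (by rw [I₁]; norm_num)
    rw [I₀, I₁] at h1 ⊢
    simp only [Real.one_rpow, mul_one] at h1 ⊢
    convert h1
  | succ n ih =>
    intro f₀ f₁ h a b hf₀ hf₁ hh ha hb B haB hbB f₀0 f₁0 h0 I₀ I₁ H
    have hB0 : 0 ≤ B := le_trans (abs_nonneg _) (haB 0)
    -- products are nice
    have nice_mul : ∀ (g f : (Fin (n + 1) → ℝ) → ℝ), Measurable g → (∀ x, |g x| ≤ B) → Nice f →
        Nice (fun x => g x * f x) := by
      intro g f hg hgB hf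
      obtain ⟨hm, ⟨B', hB'⟩, ⟨L, hL⟩⟩ := hf
      refine ⟨hg.mul hm, ⟨B * B', fun x => ?_⟩, ⟨L, fun x hx => ?_⟩⟩
      · rw [abs_mul]
        exact mul_le_mul (hgB x) (hB' x) (abs_nonneg _) hB0
      · exact hL x (right_ne_zero_of_mul hx)
    have naf := nice_mul a f₀ ha haB hf₀
    have nbf := nice_mul b f₁ hb hbB hf₁
    set F₀ : ℝ → ℝ := fun x => ∫ y : Fin n → ℝ, f₀ (Fin.cons x y) with hF₀
    set F₁ : ℝ → ℝ := fun x => ∫ y : Fin n → ℝ, f₁ (Fin.cons x y) with hF₁
    set Hh : ℝ → ℝ := fun x => ∫ y : Fin n → ℝ, h (Fin.cons x y) with hHh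
    have hF₀nn : ∀ x, 0 ≤ F₀ x := fun x => integral_nonneg (fun y => f₀0 _)
    have hF₁nn : ∀ x, 0 ≤ F₁ x := fun x => integral_nonneg (fun y => f₁0 _)
    have hHnn : ∀ x, 0 ≤ Hh x := fun x => integral_nonneg (fun y => h0 _)
    -- bound of partial integrals
    have bd : ∀ (g f : (Fin (n + 1) → ℝ) → ℝ), Measurable g → (∀ x, |g x| ≤ B) → Nice f →
        (∀ x, 0 ≤ f x) → ∀ x : ℝ, |∫ y : Fin n → ℝ, g (Fin.cons x y) * f (Fin.cons x y)|
          ≤ B * ∫ y : Fin n → ℝ, f (Fin.cons x y) := by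
      intro g f hg hgB hf hf0 x
      rw [← integral_const_mul, ← Real.norm_eq_abs]
      refine norm_integral_le_of_norm_le ((hf.slice x).integrable.const_mul B) ?_
      filter_upwards with y
      rw [Real.norm_eq_abs, abs_mul, abs_of_nonneg (hf0 _)]
      exact mul_le_mul_of_nonneg_right (hgB _) (hf0 _)
    set A : ℝ → ℝ := fun x => (∫ y : Fin n → ℝ, a (Fin.cons x y) * f₀ (Fin.cons x y)) / F₀ x with hA
    set Bb : ℝ → ℝ := fun x => (∫ y : Fin n → ℝ, b (Fin.cons x y) * f₁ (Fin.cons x y)) / F₁ x with hBb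
    have hAF : ∀ x, A x * F₀ x = ∫ y : Fin n → ℝ, a (Fin.cons x y) * f₀ (Fin.cons x y) := by
      intro x
      simp only [hA]
      by_cases hz : F₀ x = 0
      · have h1 := bd a f₀ ha haB hf₀ f₀0 x
        have h2 : ∫ y : Fin n → ℝ, f₀ (Fin.cons x y) = 0 := hz
        rw [h2, mul_zero] at h1
        rw [hz, mul_zero]
        exact (abs_eq_zero.mp (le_antisymm h1 (abs_nonneg _))).symm
      · field_simp
    have hBF : ∀ x, Bb x * F₁ x = ∫ y : Fin n → ℝ, b (Fin.cons x y) * f₁ (Fin.cons x y) := by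
      intro x
      simp only [hBb]
      by_cases hz : F₁ x = 0
      · have h1 := bd b f₁ hb hbB hf₁ f₁0 x
        have h2 : ∫ y : Fin n → ℝ, f₁ (Fin.cons x y) = 0 := hz
        rw [h2, mul_zero] at h1
        rw [hz, mul_zero]
        exact (abs_eq_zero.mp (le_antisymm h1 (abs_nonneg _))).symm
      · field_simp
    have hAB : ∀ x, |A x| ≤ B := by
      intro x
      simp only [hA]
      rw [abs_div, abs_of_nonneg (hF₀nn x)]
      exact div_le_of_le_mul₀ (hF₀nn x) hB0 (bd a f₀ ha haB hf₀ f₀0 x)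
    have hBB : ∀ x, |Bb x| ≤ B := by
      intro x
      simp only [hBb]
      rw [abs_div, abs_of_nonneg (hF₁nn x)]
      exact div_le_of_le_mul₀ (hF₁nn x) hB0 (bd b f₁ hb hbB hf₁ f₁0 x)
    have hAm : Measurable A := naf.partial.1.div hf₀.partial.1
    have hBm : Measurable Bb := nbf.partial.1.div hf₁.partial.1
    have IF₀ : ∫ x, F₀ x = 1 := by rw [← I₀, integral_cons hf₀.integrable]
    have IF₁ : ∫ x, F₁ x = 1 := by rw [← I₁, integral_cons hf₁.integrable]
    have key := addPL_one t ht F₀ F₁ Hh A Bb hf₀.partial hf₁.partial hh.partial hAm hBm B hAB hBB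
      hF₀nn hF₁nn hHnn IF₀ IF₁ (by
        intro x x' hx hx'
        set c : ℝ := (F₀ x) ^ (-(1 - t)) * (F₁ x') ^ (-t) with hc
        have hc0 : 0 < c := by
          rw [hc]; exact mul_pos (Real.rpow_pos_of_pos hx _) (Real.rpow_pos_of_pos hx' _)
        have nice_const : ∀ (f : (Fin n → ℝ) → ℝ) (r : ℝ), Nice f → Nice (fun y => f y * r) := by
          intro f r hf
          obtain ⟨hm, ⟨B', hB'⟩, ⟨L, hL⟩⟩ := hf
          refine ⟨hm.mul_const r, ⟨B' * |r|, fun x => ?_⟩, ⟨L, fun x hx => ?_⟩⟩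
          · rw [abs_mul]
            exact mul_le_mul_of_nonneg_right (hB' x) (abs_nonneg _)
          · exact hL x (left_ne_zero_of_mul hx)
        have h1 := ih (fun y => f₀ (Fin.cons x y) * (F₀ x)⁻¹) (fun y => f₁ (Fin.cons x' y) * (F₁ x')⁻¹)
          (fun y => h (Fin.cons ((1 - t) * x + t * x') y) * c)
          (fun y => a (Fin.cons x y)) (fun y => b (Fin.cons x' y))
          (nice_const _ _ (hf₀.slice x)) (nice_const _ _ (hf₁.slice x'))
          (nice_const _ _ (hh.slice _))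
          (ha.comp (measurable_cons.comp measurable_prodMk_left))
          (hb.comp (measurable_cons.comp measurable_prodMk_left)) B
          (fun y => haB _) (fun y => hbB _)
          (fun y => mul_nonneg (f₀0 _) (inv_nonneg.mpr hx.le))
          (fun y => mul_nonneg (f₁0 _) (inv_nonneg.mpr hx'.le))
          (fun y => mul_nonneg (h0 _) hc0.le)
          (by rw [integral_mul_const]; exact mul_inv_cancel₀ hx.ne')
          (by rw [integral_mul_const]; exact mul_inv_cancel₀ hx'.ne')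
          (by
            intro y y' hy hy'
            have hy1 : 0 < f₀ (Fin.cons x y) := by
              by_contra hcon
              have : f₀ (Fin.cons x y) = 0 := le_antisymm (not_lt.mp hcon) (f₀0 _)
              rw [this, zero_mul] at hy
              exact lt_irrefl _ hy
            have hy1' : 0 < f₁ (Fin.cons x' y') := by
              by_contra hcon
              have : f₁ (Fin.cons x' y') = 0 := le_antisymm (not_lt.mp hcon) (f₁0 _)
              rw [this, zero_mul] at hy'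
              exact lt_irrefl _ hy'
            have h2 := H (Fin.cons x y) (Fin.cons x' y') hy1 hy1'
            have h3 : ((1 - t) • (Fin.cons x y : Fin (n + 1) → ℝ) + t • (Fin.cons x' y' : Fin (n + 1) → ℝ))
                = Fin.cons ((1 - t) * x + t * x') ((1 - t) • y + t • y') := by
              funext i
              refine Fin.cases ?_ (fun j => ?_) i <;> simp
            rw [h3] at h2
            refine h2.trans (le_of_eq ?_)
            rw [Real.mul_rpow hy1.le (inv_nonneg.mpr hx.le),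
              Real.mul_rpow hy1'.le (inv_nonneg.mpr hx'.le), hc,
              Real.inv_rpow hx.le, Real.inv_rpow hx'.le]
            have e1 : (F₀ x) ^ (-(1 - t)) ≠ 0 := (Real.rpow_pos_of_pos hx _).ne'
            have e2 : (F₁ x') ^ (-t) ≠ 0 := (Real.rpow_pos_of_pos hx' _).ne'
            field_simp)
        have h4 : ∫ y : Fin n → ℝ, a (Fin.cons x y) * (f₀ (Fin.cons x y) * (F₀ x)⁻¹) = A x := by
          simp only [hA]
          rw [div_eq_mul_inv, ← integral_mul_const]
          congr 1; funext y; ring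
        have h5 : ∫ y : Fin n → ℝ, b (Fin.cons x' y) * (f₁ (Fin.cons x' y) * (F₁ x')⁻¹) = Bb x' := by
          simp only [hBb]
          rw [div_eq_mul_inv, ← integral_mul_const]
          congr 1; funext y; ring
        rw [h4, h5, integral_mul_const] at h1
        exact h1)
    rw [integral_cons naf.integrable, integral_cons nbf.integrable, integral_cons hh.integrable]
    refine le_trans (le_of_eq ?_) key
    congr 1
    · apply integral_congr_ae; filter_upwards with x; exact (hAF x).symm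
    · apply integral_congr_ae; filter_upwards with x; exact (hBF x).symm

end Crest.Agent.S0109
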