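import Crest.Agent.S0109B

set_option autoImplicit false

namespace Crest.Agent.S0109

open MeasureTheory Filter Set
open scoped Topology ENNReal

variable {d : ℕ}

local notation "E" => EuclideanSpace ℝ (Fin d)

lemma integral_toLp (g : E → ℝ) : ∫ x : Fin d → ℝ, g (WithLp.toLp 2 x) = ∫ x, g x :=
  (PiLp.volume_preserving_toLp (Fin d)).integral_comp (MeasurableEquiv.measurableEmbedding
    (MeasurableEquiv.toLp 2 (Fin d → ℝ))) g

lemma measurable_toLp' : Measurable (fun x : Fin d → ℝ => (WithLp.toLp 2 x : E)) :=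
  (PiLp.volume_preserving_toLp (Fin d)).measurable

lemma nice_indicator (V : Set E) (hV : MeasurableSet V) (hb : Bornology.IsBounded V) (g : E → ℝ)
    (hg : Measurable g) (B : ℝ) (hB : ∀ x ∈ V, |g x| ≤ B) :
    Nice (fun x : Fin d → ℝ => V.indicator g (WithLp.toLp 2 x)) := by
  refine ⟨(hg.indicator hV).comp measurable_toLp', ⟨max B 0, fun x => ?_⟩, ?_⟩
  · by_cases h : (WithLp.toLp 2 x : E) ∈ V
    · simp only [indicator_of_mem h]; exact (hB _ h).trans (le_max_left _ _)
    · simp only [indicator_of_notMem h, abs_zero]; exact le_max_right _ _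
  · obtain ⟨L, hL⟩ := hb.exists_norm_le
    refine ⟨L, fun x hx i => ?_⟩
    have hmem : (WithLp.toLp 2 x : E) ∈ V := by
      by_contra hne
      exact hx (indicator_of_notMem hne _)
    have h1 := hL _ hmem
    have h2 := PiLp.norm_apply_le (WithLp.toLp 2 x : E) i
    calc |x i| = ‖(WithLp.toLp 2 x : E) i‖ := rfl
      _ ≤ _ := h2.trans h1

/-- Additive Prekopa-Leindler inequality for a pair of cells. -/
theorem cellPL (t : ℝ) (ht : t ∈ Ioo (0 : ℝ) 1) (V₀ V₁ Vt : Set E)
    (hV₀ : MeasurableSet V₀) (hV₁ : MeasurableSet V₁) (hVt : MeasurableSet Vt)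
    (bV₀ : Bornology.IsBounded V₀) (bV₁ : Bornology.IsBounded V₁) (bVt : Bornology.IsBounded Vt)
    (f w a b : E → ℝ) (hf : Measurable f) (hw : Measurable w) (ha : Measurable a)
    (hb : Measurable b) (B : ℝ) (hfB : ∀ x ∈ V₁, |f x| ≤ B) (hwB : ∀ x ∈ Vt, |w x| ≤ B)
    (haB : ∀ x ∈ V₀, |a x| ≤ B) (hbB : ∀ x ∈ V₁, |b x| ≤ B)
    (hfpos : ∀ x ∈ V₁, 0 < f x) (hw0 : ∀ x ∈ Vt, 0 ≤ w x) (m : ℝ) (hm : 0 < m)
    (h₀ : (volume V₀).toReal = m) (h₁ : ∫ x in V₁, f x = m)
    (hz : ∀ x ∈ V₀, ∀ x' ∈ V₁, (1 - t) • x + t • x' ∈ Vt)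
    (H : ∀ x ∈ V₀, ∀ x' ∈ V₁, a x + b x' ≤ w ((1 - t) • x + t • x') * (f x') ^ (-t)) :
    (∫ x in V₀, a x) + (∫ x in V₁, b x * f x) ≤ ∫ x in Vt, w x := by
  by_cases hne0 : V₀.Nonempty
  swap
  · rw [not_nonempty_iff_eq_empty] at hne0
    rw [hne0] at h₀
    simp at h₀
    exact absurd h₀ hm.ne
  have hB0 : 0 ≤ B := by
    obtain ⟨x, hx⟩ := hne0
    exact le_trans (abs_nonneg _) (haB x hx)
  have key := addPL t ht d
    (fun x => V₀.indicator (fun _ => m⁻¹) (WithLp.toLp 2 x))
    (fun x => V₁.indicator (fun x => f x * m⁻¹) (WithLp.toLp 2 x))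
    (fun x => Vt.indicator (fun x => w x * m⁻¹) (WithLp.toLp 2 x))
    (fun x => V₀.indicator a (WithLp.toLp 2 x))
    (fun x => V₁.indicator b (WithLp.toLp 2 x))
    (nice_indicator V₀ hV₀ bV₀ _ measurable_const |m⁻¹| (fun x _ => le_refl _))
    (nice_indicator V₁ hV₁ bV₁ _ (hf.mul_const _) (B * |m⁻¹|) (fun x hx => by
      rw [abs_mul]; exact mul_le_mul_of_nonneg_right (hfB x hx) (abs_nonneg _)))
    (nice_indicator Vt hVt bVt _ (hw.mul_const _) (B * |m⁻¹|) (fun x hx => by
      rw [abs_mul]; exact mul_le_mul_of_nonneg_right (hwB x hx) (abs_nonneg _)))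
    ((ha.indicator hV₀).comp measurable_toLp') ((hb.indicator hV₁).comp measurable_toLp') B
    (fun x => by
      by_cases h : (WithLp.toLp 2 x : E) ∈ V₀
      · simp only [indicator_of_mem h]; exact haB _ h
      · simp only [indicator_of_notMem h, abs_zero]; exact hB0)
    (fun x => by
      by_cases h : (WithLp.toLp 2 x : E) ∈ V₁
      · simp only [indicator_of_mem h]; exact hbB _ h
      · simp only [indicator_of_notMem h, abs_zero]; exact hB0)
    (fun x => indicator_nonneg (fun _ _ => inv_nonneg.mpr hm.le) _)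
    (fun x => indicator_nonneg (fun y hy => mul_nonneg (hfpos y hy).le (inv_nonneg.mpr hm.le)) _)
    (fun x => indicator_nonneg (fun y hy => mul_nonneg (hw0 y hy) (inv_nonneg.mpr hm.le)) _)
    (by
      rw [integral_toLp (fun x => V₀.indicator (fun _ => m⁻¹) x), integral_indicator hV₀,
        setIntegral_const, Measure.real, h₀, smul_eq_mul, mul_inv_cancel₀ hm.ne'])
    (by
      rw [integral_toLp (fun x => V₁.indicator (fun x => f x * m⁻¹) x), integral_indicator hV₁,
        integral_mul_const, h₁, mul_inv_cancel₀ hm.ne'])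
    (by
      intro x x' hx hx'
      have hxV : (WithLp.toLp 2 x : E) ∈ V₀ := by
        by_contra h
        simp only [indicator_of_notMem h] at hx
        exact lt_irrefl _ hx
      have hxV' : (WithLp.toLp 2 x' : E) ∈ V₁ := by
        by_contra h
        simp only [indicator_of_notMem h] at hx'
        exact lt_irrefl _ hx'
      have hzz : (WithLp.toLp 2 ((1 - t) • x + t • x') : E)
          = (1 - t) • (WithLp.toLp 2 x : E) + t • (WithLp.toLp 2 x' : E) := rfl
      have hzV := hz _ hxV _ hxV'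
      simp only [indicator_of_mem hxV, indicator_of_mem hxV', hzz, indicator_of_mem hzV]
      refine (H _ hxV _ hxV').trans (le_of_eq ?_)
      have hfp := hfpos _ hxV'
      rw [Real.mul_rpow hfp.le (inv_nonneg.mpr hm.le)]
      have e1 : (m⁻¹) ^ (-(1 - t)) * (m⁻¹) ^ (-t) = m := by
        rw [← Real.rpow_add (inv_pos.mpr hm)]
        have : -(1 - t) + -t = -1 := by ring
        rw [this, Real.rpow_neg_one, inv_inv]
      calc w ((1 - t) • (WithLp.toLp 2 x : E) + t • (WithLp.toLp 2 x' : E)) * (f (WithLp.toLp 2 x')) ^ (-t)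
          = w ((1 - t) • (WithLp.toLp 2 x : E) + t • (WithLp.toLp 2 x' : E)) * m⁻¹
            * (((m⁻¹) ^ (-(1 - t)) * (m⁻¹) ^ (-t)) * (f (WithLp.toLp 2 x')) ^ (-t)) := by
            rw [e1]; field_simp
        _ = _ := by ring)
  rw [integral_toLp (fun x => V₀.indicator a x * V₀.indicator (fun _ => m⁻¹) x),
    integral_toLp (fun x => V₁.indicator b x * V₁.indicator (fun x => f x * m⁻¹) x),
    integral_toLp (fun x => Vt.indicator (fun x => w x * m⁻¹) x)] at key
  have e1 : (fun x => V₀.indicator a x * V₀.indicator (fun _ => m⁻¹) x)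
      = V₀.indicator (fun x => a x * m⁻¹) := by
    funext x; by_cases h : x ∈ V₀ <;> simp [h]
  have e2 : (fun x => V₁.indicator b x * V₁.indicator (fun x => f x * m⁻¹) x)
      = V₁.indicator (fun x => b x * f x * m⁻¹) := by
    funext x; by_cases h : x ∈ V₁ <;> simp [h, mul_assoc]
  rw [e1, e2, integral_indicator hV₀, integral_indicator hV₁, integral_indicator hVt,
    integral_mul_const, integral_mul_const, integral_mul_const, ← add_mul] at key
  exact le_of_mul_le_mul_right key (inv_pos.mpr hm)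

end Crest.Agent.S0109
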