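import Crest.Statements.S0170
import Crest.Agent.BoxFlow.Plan

set_option autoImplicit false
open scoped ContDiff
open Crest.AnalysisR.BoxFlow
open Crest Crest.AnalysisR

namespace Crest.Agent.S0170

/-- Finitely many pairwise disjoint rational boxes in 3-space are carried onto disjoint target boxes, each a translated determinant-one positive diagonal rescaling of its source, by the time-one flow of a smooth, compactly supported, effective, divergence-free velocity field active only in [1/4,3/4]. The flow equals the prescribed affine map on a neighbourhood of each source box. Effective: computably approximable mixed derivatives at rational points and computable global derivative bounds. -/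
theorem result
    (n : ℕ) (a b h k : Fin n → Fin 3 → ℚ)
    (hh : ∀ i j, 0 < h i j) (hk : ∀ i j, 0 < k i j)
    (ha : Pairwise fun i i' => Disjoint (box (a i) (h i)) (box (a i') (h i')))
    (hb : Pairwise fun i i' => Disjoint (box (b i) (k i)) (box (b i') (k i')))
    (hvol : ∀ i, ∏ j : Fin 3, k i j / h i j = 1) :
    ∃ (U : Field) (Φ : ℝ → (Fin 3 → ℝ) → (Fin 3 → ℝ)),
      ContDiff ℝ ∞ U ∧ HasCompactSupport U ∧ Effective U ∧
      (∀ p : ℝ × (Fin 3 → ℝ), p.1 ∉ Set.Icc (1 / 4 : ℝ) (3 / 4) → U p = 0) ∧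
      (∀ p : ℝ × (Fin 3 → ℝ), spaceDiv U p = 0) ∧ IsFlow U Φ ∧
      ∀ i : Fin n, ∃ O : Set (Fin 3 → ℝ), IsOpen O ∧ box (a i) (h i) ⊆ O ∧
        ∀ x ∈ O, Φ 1 x = fun j => (b i j : ℝ) + ((k i j / h i j : ℚ) : ℝ) * (x j - (a i j : ℝ)) := by
  classical
  have hprod : ∀ i, ∏ j, k i j = ∏ j, h i j := by
    intro i
    have h1 := hvol i
    rw [Finset.prod_div_distrib] at h1
    have h2 : ∏ j, h i j ≠ 0 := (Finset.prod_pos fun j _ => hh i j).ne'
    exact (div_eq_one_iff_eq h2).1 h1
  obtain ⟨ε1, hε1, h1⟩ := BoxFlow.Sep.enlarge a h hh (BoxFlow.sep_of_disjoint a h hh ha)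
  obtain ⟨ε2, hε2, h2⟩ := BoxFlow.Sep.enlarge b k hk (BoxFlow.sep_of_disjoint b k hk hb)
  obtain ⟨ε, hε⟩ : ∃ ε, ε = min ε1 ε2 := ⟨_, rfl⟩
  have hε0 : 0 < ε := by rw [hε]; exact lt_min hε1 hε2
  have s1 := h1 ε hε0 (by rw [hε]; exact min_le_left _ _)
  have s2 := h2 ε hε0 (by rw [hε]; exact min_le_right _ _)
  obtain ⟨L, hL⟩ := BoxFlow.plan a b (fun i j => (1 + ε) * h i j) (fun i j => (1 + ε) * k i j)
    (fun i j => mul_pos (by linarith) (hh i j)) (fun i j => mul_pos (by linarith) (hk i j)) s1 s2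
    (fun i => by rw [Finset.prod_mul_distrib, Finset.prod_mul_distrib, hprod])
  obtain ⟨U, Φ, u1, u2, u3, u4, u5, u6, u7⟩ := BoxFlow.realize L
  refine ⟨U, Φ, u1, u2, u3, u4, u5, u6, fun i => ?_⟩
  refine ⟨{x | ∀ j : Fin 3, |x j - (a i j : ℝ)| < (1 + ε) * h i j}, ?_, ?_, ?_⟩
  · rw [Set.ofPred_forall]
    exact isOpen_iInter_of_finite fun j => isOpen_lt (by fun_prop) continuous_const
  · intro x hx j
    have h3 := hx j
    have h4 : (0:ℝ) < h i j := by exact_mod_cast hh i j
    have h5 : (0:ℝ) < ε := by exact_mod_cast hε0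
    nlinarith
  · intro x hx
    have h3 : x ∈ box (a i) (fun j => (1 + ε) * h i j) := by
      intro j
      have := (hx j).le
      push_cast
      exact this
    rw [u7 x _ (hL i x h3)]
    funext j
    unfold BoxFlow.stdm
    have h4 : (1 + ε) * k i j / ((1 + ε) * h i j) = k i j / h i j := by
      have : (1 + ε) ≠ 0 := by linarith
      rw [mul_div_mul_left _ _ this]
    dsimp only
    rw [h4]

end Crest.Agent.S0170
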