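-- S0334: the propeller inequality. Proof in Crest/Agent/Prop334/ (helper5 core; helper7, helper8, helper4, helper22, helper25 parts).
import Crest.Statements.S0334
import Crest.Agent.Prop334.Core11
import Crest.Agent.Prop334.Cap
import Crest.Agent.Prop334.PL
import Crest.Agent.Prop334.TGI
import Crest.Agent.Prop334.Reg4
import Crest.Agent.Prop334.Reg5
import Crest.Agent.Prop334.Reg6
import Crest.Agent.Prop334.Reg78
import Crest.Agent.Prop334.Reg9

set_option autoImplicit false
open MeasureTheory ProbabilityTheory
universe u v
open Crest Crest.GeometryTopology


namespace Crest.Agent.Prop334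

/-- all the parts of the proof -/
theorem allParts : Parts where
  pl := fun _ _ _ _ w v hv T hT => PL_cone w v hv T hT
  tgi := fun _ u q1 q2 hu h1 h2 g hg hg2 lam hl => tgauge_integral u q1 q2 hu h1 h2 g hg hg2 lam hl
  half := fun n A hA u hu s => halfspace_bound n A hA u hu s
  cap3 := fun A hA hc hp u hu => cone_bound_3 A hA hc hp u hu
  cap4 := fun A hA hc hp u hu => cone_bound_4 A hA hc hp u hu
  cap5 := fun A hA hc hp u hu => cone_bound_5 A hA hc hp u hu
  cap7 := fun A hA hc hp u hu => cone_bound_7 A hA hc hp u hu
  reg4 := region_4
  reg5 := region_5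
  reg6 := Reg6.region_6
  reg78 := region_7_8
  reg9 := region_ge9

end Crest.Agent.Prop334

namespace Crest.Agent.S0334

/-- In a finite-dimensional real inner product space carrying its standard Gaussian probability measure, for every finite family of measurable cells that are pairwise disjoint and cover the space, the sum over the cells of the squared norm of the cell's Gaussian first moment (the integral of the identity map over the cell) is at most `9 / (8 π)`. Empty cells are allowed. -/
theorem result
    (E : Type u) [NormedAddCommGroup E] [InnerProductSpace ℝ E] [FiniteDimensional ℝ E]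
    [MeasurableSpace E] [BorelSpace E]
    (ι : Type v) [Fintype ι] (A : ι → Set E)
    (hA : ∀ i, MeasurableSet (A i))
    (hdisj : Pairwise fun i j => Disjoint (A i) (A j))
    (hcov : ⋃ i, A i = Set.univ) :
    ∑ i, ‖∫ x in A i, x ∂stdGaussian E‖ ^ 2 ≤ 9 / (8 * Real.pi) := by
  exact Crest.Agent.Prop334.main Crest.Agent.Prop334.allParts E ι A hA hdisj hcov

end Crest.Agent.S0334
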