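import Crest.Statements.S0505
import Crest.Agent.IMM5.Num

set_option autoImplicit false
universe u
open Crest Crest.LogicCS

namespace Crest.Agent.S0505

section helper
open MvPolynomial Crest.ArithCircuit

section transport
variable {K ι : Type*} [CommSemiring K] {L B P S R L' B' P' S' R' : Type*}

/-- relabel the gates of a circuit. -/
def relabel (C : SPSPS K ι L B P S R) (eL : L ≃ L') (eB : B ≃ B') (eP : P ≃ P')
    (eS : S ≃ S') (eR : R ≃ R') : SPSPS K ι L' B' P' S' R' where
  leaf l := C.leaf (eL.symm l)
  inB b := (C.inB (eB.symm b)).map eL.toEmbedding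
  coefB b l := C.coefB (eB.symm b) (eL.symm l)
  inP p := (C.inP (eP.symm p)).map eB
  inS s := (C.inS (eS.symm s)).map eP.toEmbedding
  coefS s p := C.coefS (eS.symm s) (eP.symm p)
  inR r := (C.inR (eR.symm r)).map eS
  inOut := C.inOut.map eR.toEmbedding
  coefOut r := C.coefOut (eR.symm r)

variable (C : SPSPS K ι L B P S R) (eL : L ≃ L') (eB : B ≃ B') (eP : P ≃ P')
    (eS : S ≃ S') (eR : R ≃ R')

lemma relabel_leafVal (l : L') : (relabel C eL eB eP eS eR).leafVal l = C.leafVal (eL.symm l) := rfl

lemma relabel_valB (b : B') : (relabel C eL eB eP eS eR).valB b = C.valB (eB.symm b) := by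
  unfold SPSPS.valB
  simp [relabel, Finset.sum_map, SPSPS.leafVal]

lemma relabel_valP (p : P') : (relabel C eL eB eP eS eR).valP p = C.valP (eP.symm p) := by
  unfold SPSPS.valP
  have : (relabel C eL eB eP eS eR).inP p = (C.inP (eP.symm p)).map eB := rfl
  rw [this, Multiset.map_map]
  congr 1
  apply Multiset.map_congr rfl
  intro b _
  simp [relabel_valB]

lemma relabel_valS (s : S') : (relabel C eL eB eP eS eR).valS s = C.valS (eS.symm s) := by
  unfold SPSPS.valS
  have : (relabel C eL eB eP eS eR).inS s = (C.inS (eS.symm s)).map eP.toEmbedding := rfl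
  rw [this, Finset.sum_map]
  apply Finset.sum_congr rfl
  intro p _
  rw [relabel_valP]
  simp [relabel]

lemma relabel_valR (r : R') : (relabel C eL eB eP eS eR).valR r = C.valR (eR.symm r) := by
  unfold SPSPS.valR
  have : (relabel C eL eB eP eS eR).inR r = (C.inR (eR.symm r)).map eS := rfl
  rw [this, Multiset.map_map]
  congr 1
  apply Multiset.map_congr rfl
  intro b _
  simp [relabel_valS]

lemma relabel_output : (relabel C eL eB eP eS eR).output = C.output := by
  unfold SPSPS.output
  have : (relabel C eL eB eP eS eR).inOut = C.inOut.map eR.toEmbedding := rfl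
  rw [this, Finset.sum_map]
  apply Finset.sum_congr rfl
  intro p _
  rw [relabel_valR]
  simp [relabel]

lemma relabel_leafDeg (l : L') : (relabel C eL eB eP eS eR).leafDeg l = C.leafDeg (eL.symm l) := rfl

lemma relabel_degB (b : B') : (relabel C eL eB eP eS eR).degB b = C.degB (eB.symm b) := by
  unfold SPSPS.degB
  have : (relabel C eL eB eP eS eR).inB b = (C.inB (eB.symm b)).map eL.toEmbedding := rfl
  rw [this, Finset.sup_map]
  apply Finset.sup_congr rfl
  intro l _
  simp [relabel_leafDeg]

lemma relabel_degP (p : P') : (relabel C eL eB eP eS eR).degP p = C.degP (eP.symm p) := by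
  unfold SPSPS.degP
  have : (relabel C eL eB eP eS eR).inP p = (C.inP (eP.symm p)).map eB := rfl
  rw [this, Multiset.map_map]
  congr 1
  apply Multiset.map_congr rfl
  intro b _
  simp [relabel_degB]

lemma relabel_degS (s : S') : (relabel C eL eB eP eS eR).degS s = C.degS (eS.symm s) := by
  unfold SPSPS.degS
  have : (relabel C eL eB eP eS eR).inS s = (C.inS (eS.symm s)).map eP.toEmbedding := rfl
  rw [this, Finset.sup_map]
  apply Finset.sup_congr rfl
  intro l _
  simp [relabel_degP]

lemma relabel_degR (r : R') : (relabel C eL eB eP eS eR).degR r = C.degR (eR.symm r) := by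
  unfold SPSPS.degR
  have : (relabel C eL eB eP eS eR).inR r = (C.inR (eR.symm r)).map eS := rfl
  rw [this, Multiset.map_map]
  congr 1
  apply Multiset.map_congr rfl
  intro b _
  simp [relabel_degS]

lemma relabel_degOut : (relabel C eL eB eP eS eR).degOut = C.degOut := by
  unfold SPSPS.degOut
  have : (relabel C eL eB eP eS eR).inOut = C.inOut.map eR.toEmbedding := rfl
  rw [this, Finset.sup_map]
  apply Finset.sup_congr rfl
  intro l _
  simp [relabel_degR]

lemma relabel_hom (h : C.IsHomogeneous) : (relabel C eL eB eP eS eR).IsHomogeneous := by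
  obtain ⟨h1, h2, h3⟩ := h
  refine ⟨?_, ?_, ?_⟩
  · intro b l hl
    rw [relabel_leafDeg, relabel_degB]
    apply h1
    have : l ∈ (C.inB (eB.symm b)).map eL.toEmbedding := hl
    simpa [Finset.mem_map_equiv] using this
  · intro b l hl
    rw [relabel_degP, relabel_degS]
    apply h2
    have : l ∈ (C.inS (eS.symm b)).map eP.toEmbedding := hl
    simpa [Finset.mem_map_equiv] using this
  · intro l hl
    rw [relabel_degR, relabel_degOut]
    apply h3
    have : l ∈ C.inOut.map eR.toEmbedding := hl
    simpa [Finset.mem_map_equiv] using this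

end transport

/-- transport to initial segments. -/
lemma exists_fin {K ι : Type*} [CommSemiring K] {L B P S R : Type*}
    [Fintype L] [Fintype B] [Fintype P] [Fintype S] [Fintype R]
    (C : SPSPS K ι L B P S R) (h : C.IsHomogeneous) :
    ∃ (l b p s r : ℕ) (C' : SPSPS K ι (Fin l) (Fin b) (Fin p) (Fin s) (Fin r)),
      C'.IsHomogeneous ∧ C'.output = C.output ∧ C'.size = C.size := by
  refine ⟨_, _, _, _, _, relabel C (Fintype.equivFin L) (Fintype.equivFin B) (Fintype.equivFin P)
    (Fintype.equivFin S) (Fintype.equivFin R), relabel_hom _ _ _ _ _ _ h, relabel_output _ _ _ _ _ _, ?_⟩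
  simp [SPSPS.size]

/-- path expansion of a matrix product. -/
lemma path_expand {A : Type*} [CommSemiring A] {n : ℕ} :
    ∀ (ℓ : ℕ) (M : Fin ℓ → Matrix (Fin n) (Fin n) A) (i j : Fin n),
    (List.ofFn M).prod i j = ∑ p : Fin (ℓ + 1) → Fin n,
      if p 0 = i ∧ p (Fin.last ℓ) = j then ∏ k : Fin ℓ, M k (p k.castSucc) (p k.succ) else 0 := by
  intro ℓ
  induction ℓ with
  | zero =>
    intro M i j
    simp only [List.ofFn_zero, List.prod_nil, Finset.univ_eq_empty, Finset.prod_empty]
    rw [← (Equiv.funUnique (Fin 1) (Fin n)).symm.sum_comp]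
    simp only [Equiv.funUnique_symm_apply, Matrix.one_apply]
    have : ∀ x : Fin n, (uniqueElim x : Fin 1 → Fin n) = fun _ => x := by
      intro x; funext y; exact (Subsingleton.elim y default) ▸ rfl
    simp only [this]
    by_cases hij : i = j
    · subst hij
      simp
    · rw [if_neg hij]
      symm
      apply Finset.sum_eq_zero
      intro x _
      rw [if_neg]
      rintro ⟨h1, h2⟩
      exact hij (h1.symm.trans h2)
  | succ ℓ ih =>
    intro M i j
    rw [List.ofFn_succ, List.prod_cons, Matrix.mul_apply]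
    rw [← (Fin.consEquiv (fun _ => Fin n)).sum_comp, Fintype.sum_prod_type]
    simp only [Fin.consEquiv_apply, Fin.cons_zero]
    have key : ∀ x, M 0 i x * (List.ofFn fun i => M i.succ).prod x j = 
          ∑ p : Fin (ℓ + 1) → Fin n, if p 0 = x ∧ p (Fin.last ℓ) = j then 
            M 0 i x * ∏ k : Fin ℓ, M k.succ (p k.castSucc) (p k.succ) else 0 := by
      intro x
      rw [ih, Finset.mul_sum]
      apply Finset.sum_congr rfl
      intro p _
      split_ifs <;> simp
    rw [Finset.sum_congr rfl (fun x _ => key x), Finset.sum_comm]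
    symm
    rw [Finset.sum_eq_single i]
    · apply Finset.sum_congr rfl
      intro p _
      symm
      rw [Finset.sum_eq_single (p 0)]
      · have e1 : (Fin.last (ℓ + 1)) = (Fin.last ℓ).succ := rfl
        rw [e1, Fin.cons_succ]
        simp only [true_and]
        split_ifs with h
        · rw [Fin.prod_univ_succ]
          congr 1
        · rfl
      · intro x _ hx
        rw [if_neg]
        rintro ⟨h1, _⟩
        exact hx h1.symm
      · intro h; exact absurd (Finset.mem_univ _) h
    · intro x _ hx
      apply Finset.sum_eq_zero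
      intro p _
      rw [if_neg]
      rintro ⟨h1, _⟩
      exact hx h1
    · intro h; exact absurd (Finset.mem_univ _) h

section main
variable (K : Type u) [Field K] (n t r : ℕ) 

/-- set of padded paths. -/
def goodPath (m : Fin r) (p : Fin (t + 1) → Fin n) : Prop :=
  ∀ k : Fin t, n ≤ m.val * t + k.val → p k.succ = p k.castSucc

instance (m : Fin r) (p : Fin (t + 1) → Fin n) : Decidable (goodPath n t r m p) := by
  unfold goodPath; infer_instance

/-- extension of the intermediate indices by `0` at both ends. -/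
def ext [NeZero n] (q : Fin (r - 1) → Fin n) (m : ℕ) : Fin n :=
  if h : 0 < m ∧ m < r then q ⟨m - 1, by omega⟩ else 0

/-- the circuit. -/
def circ [NeZero n] : SPSPS K (Fin n × Fin n × Fin n) (Fin n × Fin n × Fin n) (Fin n × Fin n × Fin n)
    (Fin r × (Fin (t + 1) → Fin n)) (Fin r × Fin n × Fin n) (Fin (r - 1) → Fin n) where
  leaf l := Sum.inl l
  inB b := {b}
  coefB _ _ := 1
  inP x := (Finset.univ.filter (fun k : Fin t => x.1.val * t + k.val < n)).val.map
    (fun k => (Fin.ofNat n (x.1.val * t + k.val), x.2 k.castSucc, x.2 k.succ))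
  inS x := Finset.univ.filter (fun y : Fin r × (Fin (t + 1) → Fin n) => 
    y.1 = x.1 ∧ goodPath n t r y.1 y.2 ∧ y.2 0 = x.2.1 ∧ y.2 (Fin.last t) = x.2.2)
  coefS _ _ := 1
  inR q := (Finset.univ : Finset (Fin r)).val.map (fun m => (m, ext n r q m.val, ext n r q (m.val + 1)))
  inOut := Finset.univ
  coefOut _ := 1

/-- padded matrices -/
noncomputable def padM (k : ℕ) : Matrix (Fin n) (Fin n) (MvPolynomial (Fin n × Fin n × Fin n) K) :=
  if h : k < n then varMatrix K n ⟨k, h⟩ else 1

lemma circ_valB [NeZero n] (b : Fin n × Fin n × Fin n) : (circ K n t r).valB b = X b := by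
  simp [SPSPS.valB, circ, SPSPS.leafVal]

lemma circ_valP [NeZero n] (x : Fin r × (Fin (t + 1) → Fin n)) (hx : goodPath n t r x.1 x.2) :
    (circ K n t r).valP x = ∏ k : Fin t, padM K n (x.1.val * t + k.val) (x.2 k.castSucc) (x.2 k.succ) := by
  unfold SPSPS.valP
  have : (circ K n t r).inP x = (Finset.univ.filter (fun k : Fin t => x.1.val * t + k.val < n)).val.map
    (fun k => (Fin.ofNat n (x.1.val * t + k.val), x.2 k.castSucc, x.2 k.succ)) := rfl
  rw [this, Multiset.map_map]
  change ∏ k ∈ Finset.univ.filter (fun k : Fin t => x.1.val * t + k.val < n), 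
    (circ K n t r).valB (Fin.ofNat n (x.1.val * t + k.val), x.2 k.castSucc, x.2 k.succ) = _
  rw [Finset.prod_filter]
  apply Finset.prod_congr rfl
  intro k _
  rw [circ_valB]
  unfold padM
  split_ifs with h
  · simp only [varMatrix, Matrix.of_apply]
    congr 2
    apply Fin.ext
    simp [Fin.ofNat, Nat.mod_eq_of_lt h]
  · rw [hx k (by omega)]
    simp

lemma circ_valS [NeZero n] (x : Fin r × Fin n × Fin n) :
    (circ K n t r).valS x = (List.ofFn (fun k : Fin t => padM K n (x.1.val * t + k.val))).prod x.2.1 x.2.2 := by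
  rw [path_expand]
  unfold SPSPS.valS
  have : (circ K n t r).inS x = Finset.univ.filter (fun y : Fin r × (Fin (t + 1) → Fin n) => 
    y.1 = x.1 ∧ goodPath n t r y.1 y.2 ∧ y.2 0 = x.2.1 ∧ y.2 (Fin.last t) = x.2.2) := rfl
  rw [this, Finset.sum_filter, Fintype.sum_prod_type, Finset.sum_eq_single x.1]
  · apply Finset.sum_congr rfl
    intro p _
    by_cases hg : goodPath n t r x.1 p
    · simp only [true_and, hg]
      split_ifs with h
      · rw [circ_valP _ _ _ _ _ hg]
        simp [circ]
      · rfl
    · rw [if_neg (by simp [hg])]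
      symm
      split_ifs with h
      · unfold goodPath at hg
        push_neg at hg
        obtain ⟨k, hk1, hk2⟩ := hg
        apply Finset.prod_eq_zero (Finset.mem_univ k)
        unfold padM
        rw [dif_neg (by omega)]
        exact Matrix.one_apply_ne (Ne.symm hk2)
      · rfl
  · intro y _ hy
    apply Finset.sum_eq_zero
    intro p _
    rw [if_neg]
    rintro ⟨h1, _⟩
    exact hy h1
  · intro h; exact absurd (Finset.mem_univ _) h

lemma circ_valR [NeZero n] (q : Fin (r - 1) → Fin n) :
    (circ K n t r).valR q = ∏ m : Fin r, (List.ofFn (fun k : Fin t => padM K n (m.val * t + k.val))).prod 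
      (ext n r q m.val) (ext n r q (m.val + 1)) := by
  unfold SPSPS.valR
  have : (circ K n t r).inR q = (Finset.univ : Finset (Fin r)).val.map 
    (fun m => (m, ext n r q m.val, ext n r q (m.val + 1))) := rfl
  rw [this, Multiset.map_map]
  change ∏ m : Fin r, (circ K n t r).valS (m, ext n r q m.val, ext n r q (m.val + 1)) = _
  apply Finset.prod_congr rfl
  intro m _
  rw [circ_valS]

lemma sum_ext [NeZero n] (hr : 0 < r) {A : Type*} [CommSemiring A] (F : Fin r → Fin n → Fin n → A) :
    ∑ q : Fin (r - 1) → Fin n, ∏ m : Fin r, F m (ext n r q m.val) (ext n r q (m.val + 1)) =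
    ∑ p : Fin (r + 1) → Fin n, 
      if p 0 = 0 ∧ p (Fin.last r) = 0 then ∏ k : Fin r, F k (p k.castSucc) (p k.succ) else 0 := by
  rw [← Finset.sum_filter]
  refine Finset.sum_bij' (fun q _ => fun m : Fin (r + 1) => ext n r q m.val) 
    (fun p _ => fun m : Fin (r - 1) => p ⟨m.val + 1, by omega⟩) ?_ ?_ ?_ ?_ ?_
  · intro q _
    simp [ext]
  · intro p _
    exact Finset.mem_univ _
  · intro q _
    funext m
    have hm := m.isLt
    simp only [ext]
    rw [dif_pos (by constructor <;> omega)]
    congr 1
  · intro p hp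
    rw [Finset.mem_filter] at hp
    funext m
    by_cases h : 0 < m.val ∧ m.val < r
    · simp only [ext]
      rw [dif_pos h]
      congr 1
      apply Fin.ext
      simp only
      omega
    · simp only [ext]
      rw [dif_neg h]
      by_cases h0 : m = 0
      · rw [h0]; exact hp.2.1.symm
      · have : m = Fin.last r := by
          apply Fin.ext
          have h1 : m.val ≠ 0 := fun h => h0 (Fin.ext h)
          have := m.isLt
          simp only [Fin.val_last]
          omega
        rw [this]; exact hp.2.2.symm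
  · intro q _
    rfl

lemma circ_output [NeZero n] (hr : 0 < r) (hn : n ≤ r * t) :
    (circ K n t r).output = (List.ofFn (fun k : Fin n => padM K n k.val)).prod 0 0 := by
  unfold SPSPS.output
  have : (circ K n t r).inOut = Finset.univ := rfl
  rw [this]
  have h1 : ∀ q, (circ K n t r).coefOut q • (circ K n t r).valR q = ∏ m : Fin r, 
      (List.ofFn (fun k : Fin t => padM K n (m.val * t + k.val))).prod 
      (ext n r q m.val) (ext n r q (m.val + 1)) := by
    intro q
    rw [circ_valR]
    simp [circ]
  rw [Finset.sum_congr rfl (fun q _ => h1 q)]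
  rw [sum_ext n r hr (fun m i j => (List.ofFn (fun k : Fin t => padM K n (m.val * t + k.val))).prod i j)]
  rw [← path_expand r (fun m : Fin r => (List.ofFn (fun k : Fin t => padM K n (m.val * t + k.val))).prod)]
  have h2 : (List.ofFn (fun m : Fin r => (List.ofFn (fun k : Fin t => padM K n (m.val * t + k.val))).prod)).prod
      = (List.ofFn (fun k : Fin (r * t) => padM K n k.val)).prod := by
    rw [List.ofFn_mul, List.prod_flatten, List.map_ofFn]
    rfl
  rw [h2]
  obtain ⟨e, he⟩ := Nat.exists_eq_add_of_le hn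
  have h3 : (List.ofFn (fun k : Fin (r * t) => padM K n k.val)).prod = 
    (List.ofFn (fun k : Fin n => padM K n k.val)).prod := by
    rw [List.ofFn_congr he, List.ofFn_add, List.prod_append]
    have : (List.ofFn fun j : Fin e => padM K n (Fin.cast he.symm (Fin.natAdd n j)).val).prod = 1 := by
      apply List.prod_eq_one
      intro x hx
      rw [List.mem_ofFn] at hx
      obtain ⟨j, rfl⟩ := hx
      unfold padM
      rw [dif_neg]
      simp
    rw [this, mul_one]
    rfl
  rw [h3]

lemma padM_imm [NeZero n] : (List.ofFn (fun k : Fin n => padM K n k.val)).prod 0 0 = imm K n := by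
  obtain ⟨m, rfl⟩ : ∃ m, n = m + 1 := ⟨n - 1, by have := NeZero.pos n; omega⟩
  unfold imm
  have : (fun k : Fin (m + 1) => padM K (m + 1) k.val) = varMatrix K (m + 1) := by
    funext k
    unfold padM
    rw [dif_pos k.isLt]
  rw [this]

lemma circ_degB [NeZero n] (b : Fin n × Fin n × Fin n) : (circ K n t r).degB b = 1 := by
  simp [SPSPS.degB, circ, SPSPS.leafDeg]

/-- block length -/
def blen (m : ℕ) : ℕ := (Finset.univ.filter (fun k : Fin t => m * t + k.val < n)).card

lemma circ_degP [NeZero n] (x : Fin r × (Fin (t + 1) → Fin n)) : 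
    (circ K n t r).degP x = blen n t x.1.val := by
  unfold SPSPS.degP
  have : (circ K n t r).inP x = (Finset.univ.filter (fun k : Fin t => x.1.val * t + k.val < n)).val.map
    (fun k => (Fin.ofNat n (x.1.val * t + k.val), x.2 k.castSucc, x.2 k.succ)) := rfl
  rw [this, Multiset.map_map]
  change ∑ k ∈ Finset.univ.filter (fun k : Fin t => x.1.val * t + k.val < n), 
    (circ K n t r).degB (Fin.ofNat n (x.1.val * t + k.val), x.2 k.castSucc, x.2 k.succ) = _
  simp [circ_degB, blen]

lemma circ_degS [NeZero n] (ht : 0 < t) (hr : (r - 1) * t < n) (x : Fin r × Fin n × Fin n) :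
    (circ K n t r).degS x = blen n t x.1.val := by
  unfold SPSPS.degS
  apply le_antisymm
  · apply Finset.sup_le
    intro y hy
    have hy' : y.1 = x.1 ∧ goodPath n t r y.1 y.2 ∧ y.2 0 = x.2.1 ∧ y.2 (Fin.last t) = x.2.2 := by
      simpa [circ] using hy
    rw [circ_degP, hy'.1]
  · have hm : x.1.val * t < n := by
      have := x.1.isLt
      calc x.1.val * t ≤ (r - 1) * t := Nat.mul_le_mul_right _ (by omega)
        _ < n := hr
    have hmem : (x.1, (Fin.cons x.2.1 (fun _ => x.2.2) : Fin (t + 1) → Fin n)) ∈ (circ K n t r).inS x := by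
      simp only [circ, Finset.mem_filter, Finset.mem_univ, true_and, Fin.cons_zero]
      refine ⟨?_, ?_⟩
      · intro k hk
        have hk0 : 0 < k.val := by
          rcases Nat.eq_zero_or_pos k.val with h | h
          · rw [h] at hk; omega
          · exact h
        have e1 : k.castSucc = Fin.succ ⟨k.val - 1, by omega⟩ := by
          apply Fin.ext
          simp
          omega
        rw [e1, Fin.cons_succ, Fin.cons_succ]
      · obtain ⟨t', rfl⟩ : ∃ t', t = t' + 1 := ⟨t - 1, by omega⟩
        have e1 : (Fin.last (t' + 1)) = (Fin.last t').succ := rfl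
        rw [e1, Fin.cons_succ]
    have := Finset.le_sup (f := (circ K n t r).degP) hmem
    rw [circ_degP] at this
    exact this

lemma circ_degR [NeZero n] (ht : 0 < t) (hr : (r - 1) * t < n) (q : Fin (r - 1) → Fin n) :
    (circ K n t r).degR q = ∑ m : Fin r, blen n t m.val := by
  unfold SPSPS.degR
  have : (circ K n t r).inR q = (Finset.univ : Finset (Fin r)).val.map 
    (fun m => (m, ext n r q m.val, ext n r q (m.val + 1))) := rfl
  rw [this, Multiset.map_map]
  change ∑ m : Fin r, (circ K n t r).degS (m, ext n r q m.val, ext n r q (m.val + 1)) = _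
  apply Finset.sum_congr rfl
  intro m _
  rw [circ_degS _ _ _ _ ht hr]

lemma circ_hom [NeZero n] (ht : 0 < t) (hr : (r - 1) * t < n) : (circ K n t r).IsHomogeneous := by
  refine ⟨?_, ?_, ?_⟩
  · intro b l hl
    rw [circ_degB]
    simp [SPSPS.leafDeg, circ]
  · intro s p hp
    have hy' : p.1 = s.1 ∧ goodPath n t r p.1 p.2 ∧ p.2 0 = s.2.1 ∧ p.2 (Fin.last t) = s.2.2 := by
      simpa [circ] using hp
    rw [circ_degP, circ_degS _ _ _ _ ht hr, hy'.1]
  · intro q hq
    rw [circ_degR _ _ _ _ ht hr]
    apply le_antisymm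
    · have := Finset.le_sup (f := (circ K n t r).degR) hq
      rw [circ_degR _ _ _ _ ht hr] at this
      exact this
    · apply Finset.sup_le
      intro y _
      rw [circ_degR _ _ _ _ ht hr]

lemma circ_size [NeZero n] : (circ K n t r).size = 
    n ^ 3 + n ^ 3 + r * n ^ (t + 1) + r * n ^ 2 + n ^ (r - 1) + 1 := by
  unfold SPSPS.size
  simp only [Fintype.card_prod, Fintype.card_fin, Fintype.card_fun]
  ring

end main

end helper

/-- For every field K and every n ≥ 2 there is a syntactically homogeneous depth-five sum-product circuit over K in the n³ matrix-entry variables (shared gates, unrestricted fan-in and bottom support) whose output is the top-left entry of the ordered product of the n variable matrices of order n and whose number of vertices, leaves included, is at most 2n³ + r·n² + r·n^(t+1) + n^(r−1) + 1 with t = ⌈√n⌉, r = ⌈n/t⌉, and also at most n^(√n + 4). Layers are indexed by initial segments of ℕ. -/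
theorem result (K : Type u) [Field K] (n : ℕ)
    (hn : 2 ≤ n) :
    ∃ (l b p s r : ℕ)
      (C : Crest.ArithCircuit.SPSPS K (Fin n × Fin n × Fin n) (Fin l) (Fin b) (Fin p) (Fin s) (Fin r)),
      C.IsHomogeneous ∧ C.output = Crest.ArithCircuit.imm K n ∧
        C.size ≤ 2 * n ^ 3 + ⌈(n : ℝ) / ⌈Real.sqrt n⌉₊⌉₊ * n ^ 2 +
          ⌈(n : ℝ) / ⌈Real.sqrt n⌉₊⌉₊ * n ^ (⌈Real.sqrt n⌉₊ + 1) +
          n ^ (⌈(n : ℝ) / ⌈Real.sqrt n⌉₊⌉₊ - 1) + 1 ∧
        (C.size : ℝ) ≤ (n : ℝ) ^ (Real.sqrt n + 4) := by
  haveI : NeZero n := ⟨by omega⟩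
  have hn1 : 1 ≤ n := by omega
  have hr0 := IMM5.rr_pos hn1
  have ht0 := IMM5.tt_pos hn1
  have h1 := IMM5.le_rr_mul_tt hn1
  have h2 := IMM5.rr_pred_mul_tt_lt hn1
  have h3 := IMM5.num_bound hn
  obtain ⟨l, b, p, s, r, C, hC1, hC2, hC3⟩ := exists_fin (circ K n (IMM5.tt n) (IMM5.rr n))
    (circ_hom K n _ _ ht0 h2)
  rw [circ_size] at hC3
  refine ⟨l, b, p, s, r, C, hC1, ?_, ?_, ?_⟩
  · rw [hC2, circ_output K n _ _ hr0 h1, padM_imm]
  · rw [hC3]
    change _ ≤ 2 * n ^ 3 + IMM5.rr n * n ^ 2 + IMM5.rr n * n ^ (IMM5.tt n + 1) + n ^ (IMM5.rr n - 1) + 1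
    apply le_of_eq
    ring
  · refine le_trans (le_of_eq ?_) h3
    rw [hC3]
    congr 1
    ring

end Crest.Agent.S0505
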